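import Vale.Agent.P269.Wkb.Lin

/-! The asymptotic expansion of the hypergeometric series. -/

namespace Vale.Agent.P269.Wkb

open Fock B Finset Polynomial

variable {r : ℕ} {L : Type} [CommRing L]

lemma nn_scale {A : Type*} [CommRing A] {e e' : A} (h : e * e' = 1) (ξ : A) (χ : Fin (r + 1) → A)
    (z : A) (k d : ℕ) : e' ^ k * nn (e * ξ) (fun j => e * χ j) (e * z) k d =
      e' ^ ((r + 1) * d) * nn ξ χ z k d := by
  have e1 : dn (e * ξ) (fun j => e * χ j) (e * z) d = dn ξ χ z d * e ^ ((r + 1) * d) := by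
    have : ∀ j (m : ℕ), e * ξ + e * χ j - (m + 1) * (e * z) = (ξ + χ j - (m + 1) * z) * e :=
      fun j m => by ring
    simp only [dn, this, prod_mul_distrib, prod_const, card_range, card_univ, Fintype.card_fin,
      ← pow_mul, mul_comm d]
  have e2 : Ring.inverse e = e' := by
    rw [← mul_one (Ring.inverse e), ← h, ← mul_assoc,
      Ring.inverse_mul_cancel _ (.of_mul_eq_one _ h), one_mul]
  have e3 : e' ^ k * e ^ k = 1 := by rw [← mul_pow, mul_comm, h, one_pow]
  rw [nn, nn, e1, Ring.mul_inverse_rev, ← Ring.inverse_pow, e2,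
    show e * ξ - d * (e * z) = e * (ξ - d * z) by ring, mul_pow]
  linear_combination (ξ - d * z) ^ k * e' ^ ((r + 1) * d) * Ring.inverse (dn ξ χ z d) * e3

lemma coeff_fE (c : Fin (r + 1) → L) (k : ℕ) :
    sg (-(r + 1)) 1 * (fE fun j => sg 1 (c j)).coeff k = sg (-k) 1 * sg 0 ((fE c).coeff k) := by
  have e : (fE fun j => sg 1 (c j)).comp (C (sg 1 1) * X) =
      C (sg 1 1 ^ (r + 1)) * (fE c).map hC := by
    have : ∀ j, C (sg 1 1) * X + C (sg 1 (c j)) = C (sg 1 (1 : L)) * (X + C (hC (c j))) :=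
      fun j => by rw [mul_add, ← map_mul, hC_apply, sg_mul]; simp
    rw [map_fE]; simp [fE, Polynomial.prod_comp, this, prod_mul_distrib]
  have e1 := congrArg (fun g => sg (-(r + 1) - k) 1 * coeff g k) e
  simp only [comp_C_mul_X_coeff, coeff_C_mul, coeff_map, sg_pow, hC_apply, one_pow] at e1
  rw [mul_comm (coeff _ _), ← mul_assoc, ← mul_assoc, sg_mul, sg_mul] at e1
  convert e1 using 3 <;> first | exact (one_mul _).symm | (push_cast; ring)

variable [Algebra ℂ L] {a : Fin (r + 1) → ℂ} (S : Dat L a)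

namespace Dat

/-- `a_j / ε + c_j`. -/
noncomputable def chi (j : Fin (r + 1)) : RH L := a j • sg (-1) 1 + hC (S.c j)

/-- The hypergeometric series before rescaling. -/
noncomputable def nG (i : Fin (r + 1)) (k : ℕ) : RQ L :=
  PowerSeries.mk fun d => sg (-((r + 1) * d)) 1 * nn (-S.chi i) S.chi (hC S.z) k d

lemma nG_eq (i : Fin (r + 1)) (k : ℕ) :
    S.nG i k = PowerSeries.C (sg (-k) 1) * (S.I i * S.W k i) := by
  have e1 : S.al = fun j => sg 1 1 * S.chi j := funext fun j => by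
    rw [chi, mul_add, mul_smul_comm, hC_apply, sg_mul, sg_mul, al, Algebra.algebraMap_eq_smul_one]
    simp
  have e2 : S.y = sg 1 1 * hC S.z := by rw [hC_apply, sg_mul, y]; simp
  ext1 d
  have := nn_scale (e := sg 1 (1 : L)) (e' := sg (-1) 1) (by simp [sg_mul]) (-S.chi i) S.chi
    (hC S.z) k d
  rw [sg_pow, sg_pow, mul_neg (sg 1 1), ← e2, ← congrFun e1 i, ← e1] at this
  rw [nG, PowerSeries.coeff_mk, PowerSeries.coeff_C_mul, I, W, P, II_W]
  simpa using this.symm

/-- The correction in the top degree. -/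
noncomputable def Z (k : ℕ) (i : Fin (r + 1)) : RQ L :=
  if k = r then V S.y (S.P i) (fE fun j => sg 1 (S.c j)) - PowerSeries.X else 0

lemma sum_xc [Nontrivial L] (i k : Fin (r + 1)) :
    ∑ k' : Fin (r + 1), PowerSeries.C (sg (-(k' : ℕ)) 1) * S.W k' i *
      PowerSeries.C (sg 0 (xc S.c (k + 1) k')) + (if (k : ℕ) = r then ph r L (C X) else 0) =
      PowerSeries.C (sg (-(k : ℕ) - 1) 1) * (S.W (k + 1) i - S.Z k i) := by
  have hd : (fE S.c).degree = (r + 1 : ℕ) := by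
    rw [degree_eq_natDegree (fE_monic _).ne_zero, fE_deg]
  rw [Z]
  split_ifs with hk
  · have : Nontrivial (RH L) := ⟨0, 1, fun h => by simpa [← sg_zero, co_sg] using congrArg (·.co 0) h⟩
    have e1 : X ^ (r + 1) %ₘ fE S.c = X ^ (r + 1) - fE S.c :=
      (div_modByMonic_unique 1 _ (fE_monic _) ⟨by ring, by
        rw [← neg_sub, degree_neg]
        exact degree_sub_lt_left (by rw [hd, degree_X_pow]) (fE_monic _).ne_zero
          (by rw [fE_monic, monic_X_pow])⟩).2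
    have e2 := (fE fun j => sg 1 (S.c j)).as_sum_range_C_mul_X_pow
    have e3 := (fE_monic fun j => sg 1 (S.c j)).coeff_natDegree
    rw [fE_deg] at e2 e3
    rw [sum_range_succ, e3, sum_range] at e2
    rw [e2, hk, ph_CX, map_add, map_sum, map_one, one_mul, ← W, ← neg_add']
    have e4 : ∀ k' : Fin (r + 1), ¬(k' : ℕ) = r + 1 := fun k' => k'.2.ne
    simp only [V_C_mul, xc, e1, coeff_sub, coeff_X_pow, e4, if_false, zero_sub,
      ← hC_apply, map_neg, mul_neg, sum_neg_distrib, mul_sub, mul_add, mul_sum,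
      ← mul_assoc, ← map_mul, coeff_fE]
    simp only [map_mul, W, hC_apply, mul_right_comm _ (V _ _ _)]
    ring
  · have h1 : (k : ℕ) + 1 < r + 1 := by have := k.2; omega
    have e1 : X ^ ((k : ℕ) + 1) %ₘ fE S.c = X ^ ((k : ℕ) + 1) :=
      (modByMonic_eq_self_iff (fE_monic _)).mpr (by rw [hd, degree_X_pow]; exact_mod_cast h1)
    rw [add_zero, sub_zero, sum_eq_single ⟨k + 1, h1⟩]
    · simp [xc, e1, ← neg_add']
    · intro j _ hj
      rw [xc, e1, coeff_X_pow, if_neg fun h => hj (Fin.ext h)]; simp [sg]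
    · simp

lemma ph_M (k' k : Fin (r + 1)) (t x : L) : ph r L (C (C ((if k' = k then t else 0) +
      ((r : ℂ) + 1) • x) + if (k' : ℕ) = 0 ∧ (k : ℕ) = r then ((r : ℂ) + 1) • X else 0)) =
      (if k' = k then PowerSeries.C (sg 0 t) else 0) + ((r : RQ L) + 1) * PowerSeries.C (sg 0 x) +
        if k' = 0 then ((r : RQ L) + 1) * (if (k : ℕ) = r then ph r L (C X) else 0) else 0 := by
  rw [← Nat.cast_succ, Nat.cast_smul_eq_nsmul, Nat.cast_smul_eq_nsmul, map_add, map_add, ph_CC,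
    ← hC_apply, map_add, map_add, map_nsmul, map_nsmul, ← Nat.cast_succ, nsmul_eq_mul, hC_apply x]
  congr 1
  · congr 1
    split_ifs
    · rfl
    · rw [map_zero, map_zero]
  · by_cases h1 : k' = 0 <;> by_cases h2 : (k : ℕ) = r
    · rw [if_pos ⟨congrArg _ h1, h2⟩, if_pos h1, if_pos h2, map_nsmul, map_nsmul, nsmul_eq_mul]
    · rw [if_neg fun h => h2 h.2, if_pos h1, if_neg h2, map_zero, map_zero, mul_zero]
    all_goals rw [if_neg fun h => h1 (Fin.ext h.1), if_neg h1, map_zero, map_zero]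

lemma sum_M [Nontrivial L] (i k : Fin (r + 1)) (M : Fin (r + 1) → L[X]) (hM : ∀ k', M k' =
      C ((if k' = k then (((k : ℕ) - r / 2 : ℂ) • S.z + ∑ l, S.c l) else 0) +
        ((r : ℂ) + 1) • xc S.c (k + 1) k') +
      if (k' : ℕ) = 0 ∧ (k : ℕ) = r then ((r : ℂ) + 1) • X else 0) :
    ∑ k' : Fin (r + 1), S.nG i k' * ph r L (C (M k')) =
      PowerSeries.C (sg (-(k : ℕ) - 1) 1) * (S.I i * (PowerSeries.C
        (sg 1 (((k : ℕ) - r / 2 : ℂ) • S.z + ∑ l, S.c l)) * S.W k i +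
          ((r : RQ L) + 1) * (S.W (k + 1) i - S.Z k i))) := by
  generalize (((k : ℕ) - r / 2 : ℂ) • S.z + ∑ l, S.c l) = t at *
  have e4 := S.sum_xc i k
  have e5 : sg (-(k : ℕ) - 1) 1 * sg 1 t = sg (-(k : ℕ)) 1 * sg 0 t := by simp [sg_mul]
  have e6 := congrArg PowerSeries.C e5
  have e7 : S.W 0 i = 1 := by simp [W]
  rw [map_mul, map_mul] at e6
  simp only [hM, ph_M]
  generalize (if (k : ℕ) = r then ph r L (C X) else 0) = q at *
  simp only [mul_add, sum_add_distrib, mul_ite, mul_zero, sum_ite_eq', mem_univ, if_true,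
    nG_eq, Fin.val_zero, Nat.cast_zero, neg_zero, sg_zero, map_one, e7, mul_one, one_mul]
  have e8 : ∑ k' : Fin (r + 1), PowerSeries.C (sg (-(k' : ℕ)) 1) * (S.I i * S.W k' i) *
      (((r : RQ L) + 1) * PowerSeries.C (sg 0 (xc S.c (k + 1) k'))) = ((r : RQ L) + 1) * S.I i *
      ∑ k' : Fin (r + 1), PowerSeries.C (sg (-(k' : ℕ)) 1) * S.W k' i *
        PowerSeries.C (sg 0 (xc S.c (k + 1) k')) := by
    rw [mul_sum]; exact sum_congr rfl fun _ _ => by ring
  rw [e8]
  linear_combination ((r : RQ L) + 1) * S.I i * e4 - S.I i * S.W k i * e6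

variable [IsDomain L] [CharZero L] {p0 : Fin (r + 1) → PowerSeries ℂ}

lemma AA_Z (ha : Function.Injective a) (hp : IsRt L a p0) (hP : S.P ∈ AA L a p0 1) (k : ℕ) :
    S.Z k ∈ AA L a p0 k := by
  have H : ∀ s : Finset (Fin (r + 1)), (fun i => V S.y (S.P i) (∏ j ∈ s, (X + C (sg 1 (S.c j)))) -
      V S.y (S.P i) (∏ j ∈ s, (X + C (S.al j)))) ∈ AA L a p0 (s.card - 1) := fun s => by
    induction s using Finset.induction_on with
    | empty => simp only [prod_empty, sub_self]; exact zero_mem _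
    | insert j s hj ih =>
      rw [card_insert_of_notMem hj]
      convert sub_mem (AA_mono (δ' := (s.card + 1 : ℕ) - 1) (S.AA_nab hp (add_mem hP
        (AA_single zero_le_one (S.c j))) ih) (by omega)) (AA_mono (AA_mul
          (AA_single le_rfl (algebraMap ℂ L (a j))) (S.AA_V hp hP s)) (by omega)) using 1
      funext i
      simp only [prod_insert hj, V_lin, Pi.sub_apply, Pi.add_apply, map_sub]
      rw [show S.al j = sg 0 (algebraMap ℂ L (a j)) + sg 1 (S.c j) from rfl, map_add]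
      ring
  by_cases hk : k = r
  · have := AA_mono (δ' := k) (H univ) (by simp [hk])
    simp only [← fE.eq_1, S.V_al ha] at this
    convert this using 2
    rw [Z, if_pos hk]
  · convert zero_mem (AA L a p0 k) using 1
    funext i
    rw [Z, if_neg hk]; rfl

theorem gen (ha : Function.Injective a) (A0 : Fin (r + 1) → RH L) (hA : ∀ i, S.y * A0 i = S.ya i)
    (M : Fin (r + 1) → Fin (r + 1) → L[X]) (hM : ∀ k' k : Fin (r + 1), M k' k =
      C ((if k' = k then (((k : ℕ) - r / 2 : ℂ) • S.z + ∑ l, S.c l) else 0) +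
        ((r : ℂ) + 1) • xc S.c (k + 1) k') +
      if (k' : ℕ) = 0 ∧ (k : ℕ) = r then ((r : ℂ) + 1) • X else 0) :
    ∃ s u : Fin (r + 1) → PowerSeries ℂ, (∀ i, PowerSeries.constantCoeff (u i) = 0) ∧
    (∀ (D : ℕ) (i k : Fin (r + 1)), ∀ d ≤ D, PowerSeries.coeff d
      ((∑ m ∈ range (D + 1), ((m.factorial : ℂ)⁻¹) • (PowerSeries.map (algebraMap ℂ (RH L)) (u i) *
        PowerSeries.C (sg (-1) 1 * hC S.zi)) ^ m) * S.nG i k) ∈ Hat.Lo ℂ L (-(k : ℕ))) ∧
    ∀ K : ℤ, ∃ (N : ℕ) (s1 : ℂ[X][X]) (U1 : Fin (r + 1) → Fin (r + 1) → L[X][X])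
      (ρ : Fin (r + 1) → Fin (r + 1) → RQ L),
      (∀ (k' k : Fin (r + 1)) d,
        PowerSeries.coeff d (ρ k' k) ∈ Hat.Lo ℂ L (K + (k' : ℕ) - (k : ℕ))) ∧
      (∀ d, PowerSeries.coeff d (ph r L (C (X ^ N) + X * s1.map (mapRingHom (algebraMap ℂ L)))) ∈
        Hat.Lo ℂ L (-((r + 1) * N))) ∧
      ∀ i k : Fin (r + 1), ∑ k' : Fin (r + 1), S.nG i k' *
          ph r L (C (X ^ N * M k' k) + X * U1 k' k) =
        ph r L (C (X ^ N) + X * s1.map (mapRingHom (algebraMap ℂ L))) *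
          (PowerSeries.C (hC S.z) * (pD (e0 L) (S.nG i k) + ((k : ℕ) : RQ L) * S.nG i k) +
            (PowerSeries.C (sg (-1) 1) * PowerSeries.map (algebraMap ℂ (RH L)) (s i) -
              PowerSeries.C (hC S.z * A0 i)) * S.nG i k +
            ∑ k' : Fin (r + 1), S.nG i k' * ρ k' k) := by
  obtain ⟨p0, hp, h0⟩ := S.exists_rt ha
  obtain ⟨s, hs⟩ := S.AA_main ha hp h0
  have hP := S.AA_P ha hp h0
  have hW := fun k => (S.AA_W hp hP k).1
  refine ⟨s, fun i => PowerSeries.mk fun d =>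
    (d : ℂ)⁻¹ * PowerSeries.coeff d (p0 i + PowerSeries.C (a i)), fun i => by simp, fun D i k d hd => ?_, fun K => ?_⟩
  · rw [hC_apply, sg_mul, add_zero, one_mul, nG_eq, mul_left_comm, ← mul_assoc _ (S.I i),
      PowerSeries.coeff_C_mul, PowerSeries.coeff_mul]
    refine Hat.Lo_mono (by omega) (Hat.mul_Lo (sg_Lo _ _) (sum_mem (S := Lz L) fun q hq => mul_mem
      (S.exp_Lo ha (h0 i) (PowerSeries.ext fun e => ?_) ?_ D _ ?_) ((hW k).1 i _)))
    · rw [coeff_th, PowerSeries.coeff_mk]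
      rcases eq_or_ne e 0 with rfl | he
      · have := hp.2 i
        rw [← PowerSeries.coeff_zero_eq_constantCoeff_apply, scL, PowerSeries.coeff_map,
          ← map_neg] at this
        rw [map_add, (algebraMap ℂ L).injective this]; simp
      · rw [mul_inv_cancel_left₀ (Nat.cast_ne_zero.mpr he)]
    · simp
    · have := mem_antidiagonal.mp hq; omega
  obtain ⟨N, h, ρ, h1, h2, h3⟩ := S.lin ha hp h0
    (fun k => add_mem (hs k) (nsmul_mem (S.AA_Z ha hp hP k) (r + 1))) (K + 1)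
  obtain ⟨s1, h4⟩ := Den_pow L a N
  choose U hU using h2
  refine ⟨(Dl a).natDegree * N, s1, fun k' k => s1.map (mapRingHom (algebraMap ℂ L)) * C (M k' k) + U k' k,
    fun k' k => -(PowerSeries.C (sg (-((k : ℕ) - (k' : ℕ)) - 1) 1) * ρ k' k),
    fun k' k => LoQ_mono (neg_mem (LoQ_ez _ (h1 k' k))) (by omega), ?_, fun i k => ?_⟩
  · rw [← h4]
    have : ∀ n : ℕ, Den L a ^ n ∈ LoQ L (-((r + 1) * ((Dl a).natDegree * n : ℕ))) := fun n => by
      induction n with
      | zero => simpa using Dat.one_LoQ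
      | succ n ih =>
        rw [pow_succ]
        exact LoQ_mono (LoQ_mul ih (emb_LoQ _ _)) (by push_cast; exact le_of_eq (by ring))
    exact this N
  have e1 : ∀ k' : Fin (r + 1), ph r L (C (X ^ ((Dl a).natDegree * N) * M k' k) +
      X * (s1.map (mapRingHom (algebraMap ℂ L)) * C (M k' k) + U k' k)) =
      Den L a ^ N * (ph r L (C (M k' k)) +
        PowerSeries.C (sg (-((k : ℕ) - (k' : ℕ)) - 1) 1) * h k' k) := fun k' => by
    rw [mul_add (Den L a ^ N), mul_left_comm, ← mul_assoc (PowerSeries.C _), hU, h4, ← map_mul,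
      ← map_add, map_mul C]
    exact congrArg (ph r L) (by ring)
  rw [← h4]
  simp only [e1, mul_left_comm _ (Den L a ^ N), ← mul_sum]
  congr 1
  have e2 := S.sum_M i k (fun k' => M k' k) fun k' => hM k' k
  have e3 : ∑ k' : Fin (r + 1), S.nG i k' *
      (PowerSeries.C (sg (-((k : ℕ) - (k' : ℕ)) - 1) 1) * (h k' k + ρ k' k)) =
      PowerSeries.C (sg (-(k : ℕ) - 1) 1) * (S.I i *
        ∑ k' : Fin (r + 1), S.W k' i * (h k' k + ρ k' k)) := by
    rw [mul_sum, mul_sum]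
    refine sum_congr rfl fun k' _ => ?_
    rw [nG_eq, mul_mul_mul_comm, ← map_mul, sg_mul, mul_assoc, mul_one]
    congr 3; ring
  have e4 : PowerSeries.C (hC S.z) * PowerSeries.C (sg (-(k : ℕ)) 1) =
      PowerSeries.C (sg (-(k : ℕ) - 1) 1) * PowerSeries.C S.y := by
    rw [← map_mul, ← map_mul, hC_apply, y, sg_mul, sg_mul]; simp
  have e5 : PowerSeries.C (sg (-1) (1 : L)) * PowerSeries.C (sg (-(k : ℕ)) 1) =
      PowerSeries.C (sg (-(k : ℕ) - 1) 1) := by
    rw [← map_mul, sg_mul, mul_one, neg_add_eq_sub]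
  have e6 := congrArg PowerSeries.C (hA i)
  have e7 : PowerSeries.C (((-(k : ℕ) : ℤ) : ℂ) • sg (-(k : ℕ)) (1 : L)) =
      -((k : ℕ) : RQ L) * PowerSeries.C (sg (-(k : ℕ)) 1) := by simp [Algebra.smul_def]
  rw [← h3, Pi.add_apply, Pi.smul_apply, nsmul_eq_mul, Nat.cast_succ] at e3
  simp only [mul_add, sum_add_distrib, mul_neg, sum_neg_distrib] at e3 ⊢
  rw [map_mul] at e6 ⊢
  rw [e2, nG_eq, der_mul, pD_C, e0_sg, e7]
  linear_combination e3 - (pD (e0 L) (S.I i * S.W k i) -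
      PowerSeries.C (A0 i) * (S.I i * S.W k i)) * e4 -
    PowerSeries.map (algebraMap ℂ (RH L)) (s i) * (S.I i * S.W k i) * e5 +
    PowerSeries.C (sg (-(k : ℕ) - 1) 1) * (S.I i * S.W k i) * e6 +
    PowerSeries.C (sg (-(k : ℕ) - 1) 1) * (PowerSeries.C S.y * pD (e0 L) (S.I i * S.W k i) +
      (PowerSeries.map (algebraMap ℂ (RH L)) (s i) - PowerSeries.C (S.ya i)) * (S.I i * S.W k i)) *
      S.I_J i

omit [IsDomain L] [CharZero L]

lemma be_eq (w : L) (n : ℕ) : S.be w n = ∑ q ∈ antidiagonal n,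
    (((_root_.bernoulli q.1 : ℚ) : ℂ) * n.choose q.1) • (S.z ^ q.1 * w ^ q.2) := by
  rw [Nat.sum_antidiagonal_eq_sum_range_succ_mk, be, bern, Polynomial.bernoulli, Polynomial.map_sum,
    map_sum, mul_sum]
  refine sum_congr rfl fun j hj => ?_
  obtain ⟨m, rfl⟩ := Nat.exists_eq_add_of_le (Nat.lt_succ_iff.mp (mem_range.mp hj))
  have e : S.z ^ m * S.zi ^ m = 1 := by rw [← mul_pow, S.hz, one_pow]
  rw [map_monomial, aeval_monomial, Nat.add_sub_cancel_left, Algebra.smul_def, pow_add, mul_pow]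
  simp only [map_mul, eq_ratCast, map_natCast]
  linear_combination algebraMap ℂ L (_root_.bernoulli j : ℚ) * ((j + m).choose j : L) * S.z ^ j *
    w ^ m * e

lemma ya_eq (ha : Function.Injective a) (i : Fin (r + 1)) {A : ℕ → L} (h0 : A 0 = 0)
    (hA : ∀ k ≠ 0, S.z * A k = ∑ l ∈ univ.erase i, ∑ q ∈ antidiagonal (k + 1),
      ((-1) ^ k * k.factorial / (a l - a i) ^ k * (_root_.bernoulli q.1 : ℚ) /
        (q.1.factorial * q.2.factorial) : ℂ) • (S.z ^ q.1 * (S.c l - S.c i) ^ q.2)) :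
    S.y * Hat.ofPS ℂ (PowerSeries.mk A) = S.ya i := by
  refine Hat.ext (funext fun n => ?_)
  rw [y, co_sg_mul, ya, Hat.co_sum]
  simp only [Hat.co_sub, co_sg]
  rcases lt_or_ge n 1 with h | h
  · rw [Hat.ofPS_Lo _ _ (by omega), mul_zero]
    exact (sum_eq_zero fun l _ => by rw [S.lw_Lo _ _ _ h, if_neg h.ne, sub_zero]).symm
  obtain ⟨k, rfl⟩ : ∃ k : ℕ, n = (k + 1 : ℕ) := ⟨(n - 1).toNat, by omega⟩
  rw [show ((k + 1 : ℕ) : ℤ) - 1 = k by omega, Hat.co_ofPS, PowerSeries.coeff_mk]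
  simp only [co_lw, be_eq]
  rcases eq_or_ne k 0 with rfl | hk
  · rw [h0, mul_zero]
    refine (sum_eq_zero fun l hl => ?_).symm
    have hb := sub_ne_zero.mpr (ha.ne (ne_of_mem_erase hl))
    simp [ka, hb, Finset.Nat.antidiagonal_succ]
    module
  rw [hA k hk]
  refine sum_congr rfl fun l hl => ?_
  have hb := sub_ne_zero.mpr (ha.ne (ne_of_mem_erase hl))
  rw [if_neg (by omega), sub_zero, smul_sum]
  refine sum_congr rfl fun q hq => ?_
  rw [smul_smul]
  congr 1
  rw [ka, ← mem_antidiagonal.mp hq, Nat.cast_add_choose, mem_antidiagonal.mp hq,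
    Nat.factorial_succ, neg_pow _⁻¹, inv_pow, pow_succ, pow_succ]
  push_cast
  field_simp

end Dat

lemma aL_eq {C : Type} [CommRing C] [Algebra ℂ C] (a : Fin (r + 1) → ℂ) (c : Fin (r + 1) → C)
    (i : Fin (r + 1)) {k : ℕ} (hk : k ≠ 0) : LaurentPolynomial.T 1 * aL a c (fun _ => True) i k =
    ∑ l ∈ univ.erase i, ∑ q ∈ antidiagonal (k + 1),
      ((-1) ^ k * k.factorial / (a l - a i) ^ k * (_root_.bernoulli q.1 : ℚ) /
        (q.1.factorial * q.2.factorial) : ℂ) • (LaurentPolynomial.T 1 ^ q.1 *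
          (LaurentPolynomial.C (c l) - LaurentPolynomial.C (c i)) ^ q.2) := by
  rw [aL, if_neg hk, mul_sum]
  refine sum_congr rfl fun l _ => ?_
  rw [filter_true, mul_sum]
  refine sum_congr rfl fun q _ => ?_
  rw [mul_smul_comm, ← mul_assoc, ← LaurentPolynomial.T_add, LaurentPolynomial.T_pow, map_pow,
    map_sub, add_sub_cancel, mul_one]

lemma a0_eq {a : Fin (r + 1) → ℂ} (ha : Function.Injective a) (i : Fin (r + 1)) :
    (dat0 a).y * a0 a i = (dat0 a).ya i :=
  (dat0 a).ya_eq ha i (if_pos rfl) fun _ hk => aL_eq a MvPolynomial.X i hk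

end Vale.Agent.P269.Wkb

namespace Vale.Agent.P269.B

open Wkb

theorem wkb {r : ℕ} (_hr : 0 < r) : WKB r := fun a ha =>
  (dat0 a).gen ha (a0 a) (a0_eq ha) (mainM MvPolynomial.X) fun k' k => by
    have : LaurentPolynomial.C (xc MvPolynomial.X (k + 1) k') = xc (cL (r := r)) (k + 1) k' := by
      rw [xc, xc, ← Polynomial.coeff_map, Polynomial.map_modByMonic _ (fE_monic _), map_fE,
        Polynomial.map_pow, Polynomial.map_X]
      rfl
    rw [mainM, this, map_sum]
    rfl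

end Vale.Agent.P269.B
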