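import Vale.Agent.P269.Wkb.Ring

/-! The filtered ring of tuples of series whose coefficients are rational functions of `p`. -/

namespace Vale.Agent.P269.Wkb

open Fock B Finset Polynomial

/-- Power series in `Q`. -/
abbrev RQ (L : Type) [CommRing L] : Type := PowerSeries (RH L)

variable {r : ℕ} {L : Type} [CommRing L] [Algebra ℂ L]

/-- The coefficient of `ε^n`. -/
noncomputable def cf (n : ℤ) : RQ L →ₗ[ℂ] PowerSeries L where
  toFun x := PowerSeries.mk fun d => (PowerSeries.coeff d x).co n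
  map_add' x y := by ext1; simp
  map_smul' c x := by ext1; simp

@[simp] lemma coeff_cf (n : ℤ) (x : RQ L) (d : ℕ) :
    PowerSeries.coeff d (cf n x) = (PowerSeries.coeff d x).co n :=
  PowerSeries.coeff_mk d fun d => (PowerSeries.coeff d x).co n

variable (L) in
/-- Series of order at least `K` in `ε`. -/
def LoQ (K : ℤ) : Submodule ℂ (RQ L) where
  carrier := {x | ∀ d, PowerSeries.coeff d x ∈ Hat.Lo ℂ L K}
  add_mem' hx hy d := by rw [map_add]; exact add_mem (hx d) (hy d)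
  zero_mem' d := by rw [map_zero]; exact zero_mem _
  smul_mem' c x hx d n hn := by simp [hx d n hn]

lemma mem_LoQ {K : ℤ} {x : RQ L} : x ∈ LoQ L K ↔ ∀ n < K, cf n x = 0 :=
  ⟨fun h n hn => PowerSeries.ext fun d => by simp [h d n hn],
    fun h d n hn => by rw [← coeff_cf, h n hn, map_zero]⟩

lemma LoQ_mono {K K' : ℤ} {x : RQ L} (hx : x ∈ LoQ L K) (h : K' ≤ K) : x ∈ LoQ L K' :=
  fun d => Hat.Lo_mono h (hx d)

lemma LoQ_succ {K : ℤ} {x : RQ L} (hx : x ∈ LoQ L K) (h : cf K x = 0) : x ∈ LoQ L (K + 1) :=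
  mem_LoQ.mpr fun n hn => by
    rcases eq_or_ne n K with rfl | h1
    exacts [h, mem_LoQ.mp hx n (by omega)]

lemma cf_mul {K K' : ℤ} {x y : RQ L} (hx : x ∈ LoQ L K) (hy : y ∈ LoQ L K') (n : ℤ) :
    cf n (x * y) = ∑ i ∈ Icc K (n - K'), cf i x * cf (n - i) y := by
  ext1 d
  simp only [coeff_cf, PowerSeries.coeff_mul, map_sum, Hat.co_sum, co_mul (hx _) (hy _)]
  exact sum_comm

lemma LoQ_mul {K K' : ℤ} {x y : RQ L} (hx : x ∈ LoQ L K) (hy : y ∈ LoQ L K') :
    x * y ∈ LoQ L (K + K') :=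
  mem_LoQ.mpr fun n hn => by rw [cf_mul hx hy, Icc_eq_empty (by omega), sum_empty]

lemma cf_lead {K K' : ℤ} {x y : RQ L} (hx : x ∈ LoQ L K) (hy : y ∈ LoQ L K') :
    cf (K + K') (x * y) = cf K x * cf K' y := by
  rw [cf_mul hx hy]; simp

lemma LoQ_C {K : ℤ} {c : RH L} (h : c ∈ Hat.Lo ℂ L K) : PowerSeries.C c ∈ LoQ L K := fun d => by
  rw [PowerSeries.coeff_C]; split_ifs; exacts [h, zero_mem _]

lemma cf_C (n : ℤ) (c : RH L) : cf n (PowerSeries.C c) = PowerSeries.C (c.co n) := by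
  ext1 d; simp [PowerSeries.coeff_C, apply_ite (Hat.co · n)]

lemma cf_ez (k n : ℤ) (x : RQ L) : cf n (PowerSeries.C (sg k 1) * x) = cf (n - k) x := by
  ext1 d; simp [co_sg_mul]

lemma LoQ_ez {K : ℤ} (k : ℤ) {x : RQ L} (h : x ∈ LoQ L K) :
    PowerSeries.C (sg k 1) * x ∈ LoQ L (k + K) := LoQ_mul (LoQ_C (sg_Lo _ _)) h

/-- A series in `Q` placed in degree `n` of `ε`. -/
noncomputable def emb (n : ℤ) (g : PowerSeries L) : RQ L :=
  PowerSeries.C (sg n 1) * PowerSeries.map hC g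

lemma cf_emb (n m : ℤ) (g : PowerSeries L) : cf m (emb n g) = if m = n then g else 0 := by
  rw [emb, cf_ez]
  ext1 d
  simp [hC_apply, co_sg, sub_eq_zero, apply_ite (PowerSeries.coeff d)]

lemma emb_LoQ (n : ℤ) (g : PowerSeries L) : emb n g ∈ LoQ L n :=
  mem_LoQ.mpr fun m hm => by rw [cf_emb, if_neg hm.ne]

lemma cf_th (n : ℤ) (x : RQ L) : cf n (th _ x) = th _ (cf n x) := by
  ext1 d; simp only [coeff_cf, coeff_th, ← nsmul_eq_mul, Hat.co_smul]

lemma cf_E (n : ℤ) (x : RQ L) : cf n (pD (e0 L) x) = (n : ℂ) • cf n x := by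
  ext1 d; simp

lemma cf_pL (G : L →ₗ[ℂ] L) (n : ℤ) (x : RQ L) : cf n (pL (hL G) x) = pL G (cf n x) := by
  ext1 d; simp

lemma LoQ_th {K : ℤ} {x : RQ L} (h : x ∈ LoQ L K) : th _ x ∈ LoQ L K :=
  mem_LoQ.mpr fun n hn => by rw [cf_th, mem_LoQ.mp h n hn, map_zero]

variable (L) in
/-- Scalar series. -/
noncomputable def scL : PowerSeries ℂ →+* PowerSeries L := PowerSeries.map (algebraMap ℂ _)

lemma emb_scL (s : PowerSeries ℂ) :
    emb 0 (scL L s) = PowerSeries.map (algebraMap ℂ (RH L)) s := by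
  rw [emb, sg_zero, map_one, one_mul]; rfl

lemma aeval_scL (s : PowerSeries ℂ) (F : ℂ[X]) :
    aeval (scL L s) (F.map (algebraMap ℂ L)) = scL L (aeval s F) := by
  rw [aeval_def, eval₂_map, aeval_def, hom_eval₂]
  congr 1
  ext1 c
  simp [scL]

variable (L r) in
/-- `Q ∂_Q` on tuples. -/
noncomputable def thP : Derivation L (Fin (r + 1) → PowerSeries L)
    (Fin (r + 1) → PowerSeries L) where
  toFun g i := th _ (g i)
  map_add' _ _ := funext fun _ => map_add _ _ _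
  map_smul' _ _ := funext fun _ => Derivation.map_smul _ _ _
  map_one_eq_zero' := funext fun _ => (th L).map_one_eq_zero
  leibniz' g g' := funext fun i => (th L).leibniz (g i) (g' i)

variable (L) (a : Fin (r + 1) → ℂ) (p0 : Fin (r + 1) → PowerSeries ℂ)

/-- Rational functions of `p`. -/
noncomputable abbrev BB (m : ℤ) : Submodule L (Fin (r + 1) → PowerSeries L) :=
  B (Fl L a) (fun i => scL L (p0 i)) m

/-- The tuple `p` consists of the roots. -/
def IsRt : Prop := (∀ i, aeval (scL L (p0 i)) (f0 L a) = PowerSeries.X) ∧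
  ∀ i, PowerSeries.constantCoeff (scL L (p0 i)) = -algebraMap ℂ L (a i)

/-- The filtered ring. -/
noncomputable def AA (δ : ℤ) : Submodule ℂ (Fin (r + 1) → RQ L) where
  carrier := {x | (∀ i, x i ∈ LoQ L 0) ∧ ∀ n, (fun i => cf n (x i)) ∈ BB L a p0 (δ - n)}
  add_mem' hx hy := ⟨fun i => add_mem (hx.1 i) (hy.1 i), fun n => by
    simp only [Pi.add_apply, map_add]; exact add_mem (hx.2 n) (hy.2 n)⟩
  zero_mem' := ⟨fun _ => zero_mem (LoQ L 0), fun n => by
    simp only [Pi.zero_apply, map_zero]; exact zero_mem _⟩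
  smul_mem' c x hx := ⟨fun i => Submodule.smul_mem _ _ (hx.1 i), fun n => by
    simp only [Pi.smul_apply, map_smul]; exact Submodule.smul_of_tower_mem _ c (hx.2 n)⟩

variable {L a p0} {m δ δ' : ℤ} {g : Fin (r + 1) → PowerSeries L} {x y : Fin (r + 1) → RQ L}

lemma BB_pL (G : L →ₗ[ℂ] L) (h : g ∈ BB L a p0 m) : (fun i => pL G (g i)) ∈ BB L a p0 m := by
  obtain ⟨N, A, h1, h2⟩ := h
  refine ⟨N, ∑ e ∈ range (A.natDegree + 1), monomial e (G (A.coeff e)), fun e he => ?_,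
    funext fun i => ?_⟩
  · simp [coeff_monomial, h1 e he]
  · have := congrFun h2 i
    simp only [Pi.mul_apply, Pi.pow_apply, aeval_pi_apply₂] at this ⊢
    rw [Fl_eq, aeval_scL, ← map_pow] at this ⊢
    rw [scL, ← pL_mul, ← scL, this, aeval_eq_sum_range, map_sum, map_sum]
    refine sum_congr rfl fun e _ => ?_
    rw [aeval_monomial, Algebra.smul_def, ← map_pow, mul_comm, scL, pL_mul, mul_comm]
    congr 1
    ext1 d
    simp [PowerSeries.coeff_C, apply_ite G]

lemma AA_mono (h : x ∈ AA L a p0 δ) (hδ : δ ≤ δ') : x ∈ AA L a p0 δ' :=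
  ⟨h.1, fun n => B_mono (h.2 n) (by omega)⟩

lemma AA_mul (hx : x ∈ AA L a p0 δ) (hy : y ∈ AA L a p0 δ') :
    (fun i => x i * y i) ∈ AA L a p0 (δ + δ') :=
  ⟨fun i => LoQ_mono (LoQ_mul (hx.1 i) (hy.1 i)) (by omega), fun n => by
    have := sum_mem (S := BB L a p0 (δ + δ' - n)) (t := Icc 0 (n - 0)) fun j _ =>
      B_mono (B_mul (hx.2 j) (hy.2 (n - j))) (by omega)
    convert this using 1
    funext i
    rw [cf_mul (hx.1 i) (hy.1 i), Finset.sum_apply]; rfl⟩

lemma AA_emb {n : ℤ} (hn : 0 ≤ n) (h : g ∈ BB L a p0 (δ - n)) :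
    (fun i => emb n (g i)) ∈ AA L a p0 δ :=
  ⟨fun i => LoQ_mono (emb_LoQ _ _) hn, fun k => by
    simp only [cf_emb]
    split_ifs with hk
    exacts [hk ▸ h, zero_mem _]⟩

lemma AA_single {n : ℤ} (hn : 0 ≤ n) (c : L) :
    (fun _ => PowerSeries.C (sg n c)) ∈ AA L a p0 n := by
  have := AA_emb (δ := n) hn (B_aeval (F := Fl L a) (p := fun i => scL L (p0 i))
    (Wle.const c (by omega)))
  convert this using 2 with i
  rw [aeval_pi_apply₂, aeval_C, emb, PowerSeries.algebraMap_apply, PowerSeries.map_C, ← map_mul,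
    hC_apply, sg_mul]
  simp

lemma AA_pL (G : L →ₗ[ℂ] L) (h : x ∈ AA L a p0 δ) :
    (fun i => pL (hL G) (x i)) ∈ AA L a p0 δ :=
  ⟨fun i d => by rw [coeff_pL]; exact Hat.map_Lo _ (h.1 i d),
    fun n => by simp only [cf_pL]; exact BB_pL G (h.2 n)⟩

lemma AA_shift (h : x ∈ AA L a p0 δ) (h1 : ∀ i, x i ∈ LoQ L 1) :
    (fun i => PowerSeries.C (sg (-1) 1) * x i) ∈ AA L a p0 (δ - 1) :=
  ⟨fun i => LoQ_mono (LoQ_ez (-1) (h1 i)) (by omega), fun n => by
    simp only [cf_ez]; exact B_mono (h.2 _) (by omega)⟩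

lemma AA_of_E (hx : ∀ i, x i ∈ LoQ L 0) (h : (fun i => pD (e0 L) (x i)) ∈ AA L a p0 δ) :
    (fun i => x i - emb 0 (cf 0 (x i))) ∈ AA L a p0 δ :=
  ⟨fun i => sub_mem (hx i) (emb_LoQ _ _), fun n => by
    simp only [map_sub, cf_emb]
    split_ifs with hn
    · simp only [hn, sub_self]; exact zero_mem _
    · convert Submodule.smul_of_tower_mem _ (n : ℂ)⁻¹ (h.2 n) using 1
      funext i
      simp [cf_E, smul_smul, inv_mul_cancel₀ (Int.cast_ne_zero.mpr hn : (n : ℂ) ≠ 0)]⟩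

variable [IsDomain L] [CharZero L]

lemma BB_low (hp : IsRt L a p0) (h : g ∈ BB L a p0 m) :
    (fun i => ((r : ℂ) + 1) • th _ (g i) - (m : ℂ) • g i) ∈ BB L a p0 (m - 1) := by
  have := B_der (fE_deg _) (Fl_monic _ a) (der_dvd _ a) (thP r L) (funext fun i => by
    show th L (aeval (fun i => scL L (p0 i)) (f0 L a) i) = aeval (fun i => scL L (p0 i)) (f0 L a) i
    rw [aeval_pi_apply₂, hp.1, th_X]) h
  convert this using 1
  funext i
  rw [← algebraMap_smul L, ← algebraMap_smul L (m : ℂ)]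
  simp only [map_add, map_natCast, map_one, map_intCast]
  rfl

lemma BB_th (hp : IsRt L a p0) (h : g ∈ BB L a p0 m) : (fun i => th _ (g i)) ∈ BB L a p0 m := by
  have := Submodule.smul_of_tower_mem _ ((r : ℂ) + 1)⁻¹
    (add_mem (B_mono (BB_low hp h) (by omega)) (Submodule.smul_of_tower_mem _ (m : ℂ) h))
  convert this using 1
  funext i
  simp [smul_smul, inv_mul_cancel₀ (Nat.cast_add_one_ne_zero (R := ℂ) r)]

lemma AA_th (hp : IsRt L a p0) (h : x ∈ AA L a p0 δ) : (fun i => th _ (x i)) ∈ AA L a p0 δ :=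
  ⟨fun i => LoQ_th (h.1 i), fun n => by simp only [cf_th]; exact BB_th hp (h.2 n)⟩

lemma AA_low (hp : IsRt L a p0) (h : x ∈ AA L a p0 δ) :
    (fun i => pD (e0 L) (x i) + ((r : ℂ) + 1) • th _ (x i) - (δ : ℂ) • x i) ∈ AA L a p0 (δ - 1) :=
  ⟨fun i => mem_LoQ.mpr fun n hn => by simp [cf_E, cf_th, mem_LoQ.mp (h.1 i) n hn], fun n => by
    convert B_mono (BB_low hp (h.2 n)) (by omega : _ ≤ δ - 1 - n) using 2 with i
    simp only [map_add, map_sub, map_smul, cf_E, cf_th, Int.cast_sub, sub_smul]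
    abel⟩

omit [CharZero L] in
lemma AA_div {u : L[X]} (hu : u ∣ Fl L a) (hx : x ∈ AA L a p0 u.natDegree)
    (h0 : ∀ i, cf 0 (x i) = aeval (scL L (p0 i)) u) (hy : ∀ i, y i ∈ LoQ L 0)
    (h : (fun i => x i * y i) ∈ AA L a p0 (δ + u.natDegree)) : y ∈ AA L a p0 δ := by
  have H : ∀ N : ℕ, ∀ n < (N : ℤ), (fun i => cf n (y i)) ∈ BB L a p0 (δ - n) := fun N => by
    induction N with
    | zero => intro n hn; simp only [mem_LoQ.mp (hy _) n hn]; exact zero_mem _
    | succ N ih =>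
      intro n hn
      rcases lt_or_ge n N with h1 | h1
      · exact ih n h1
      refine B_div (Fl_monic _ a).ne_zero hu ?_
      have := sub_mem (B_mono (h.2 n) (by omega)) (sum_mem (S := BB L a p0 (δ - n + u.natDegree))
        (t := (Icc 0 (n - 0)).erase 0) fun j hj => B_mono (B_mul (hx.2 j) (ih (n - j) (by
          simp only [mem_erase, mem_Icc] at hj; push_cast at hn; omega))) (by omega))
      convert this using 1
      funext i
      rw [Pi.sub_apply, cf_mul (hx.1 i) (hy i), Finset.sum_apply,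
        ← add_sum_erase _ _ (a := 0) (by simp; omega), h0, sub_zero n, Pi.mul_apply,
        aeval_pi_apply₂]
      exact (add_sub_cancel_right _ _).symm
  exact ⟨hy, fun n => H (n.toNat + 1) n (by omega)⟩

end Vale.Agent.P269.Wkb
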