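import Vale.Agent.P269.B.Ring
import Mathlib.RingTheory.AdjoinRoot
import Mathlib.RingTheory.Derivation.MapCoeffs
import Mathlib.LinearAlgebra.Vandermonde
import Mathlib.LinearAlgebra.Matrix.NonsingularInverse

/-! The filtered ring of rational functions of a root `p` of `f (p) = Q`. -/

namespace Vale.Agent.P269.Wkb

open Polynomial Finset

variable {K : Type*} [CommRing K]

/-- Weighted degree at most `n`, the variable has weight `ν`. -/
def Wle (ν : ℕ) (A : K[X]) (n : ℤ) : Prop := ∀ e : ℕ, n < ν * e → A.coeff e = 0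

namespace Wle

variable {ν : ℕ} {A A' : K[X]} {n n' : ℤ}

lemma mono (h : Wle ν A n) (hn : n ≤ n') : Wle ν A n' := fun e he => h e (by omega)

lemma zero : Wle ν (0 : K[X]) n := fun _ _ => rfl

lemma add (h : Wle ν A n) (h' : Wle ν A' n) : Wle ν (A + A') n := fun e he => by
  simp [h e he, h' e he]

lemma sub (h : Wle ν A n) (h' : Wle ν A' n) : Wle ν (A - A') n := fun e he => by
  simp [h e he, h' e he]

lemma C_mul (h : Wle ν A n) (c : K) : Wle ν (C c * A) n := fun e he => by simp [h e he]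

lemma mul (h : Wle ν A n) (h' : Wle ν A' n') : Wle ν (A * A') (n + n') := fun e he => by
  rw [coeff_mul]
  refine sum_eq_zero fun q hq => ?_
  obtain rfl := mem_antidiagonal.mp hq
  by_cases h1 : n < ν * q.1
  · rw [h _ h1, zero_mul]
  · rw [h' q.2 (by push_cast at he; linarith), mul_zero]

lemma nat (A : K[X]) : Wle ν A (ν * A.natDegree) := fun e he =>
  coeff_eq_zero_of_natDegree_lt (by
    by_contra h
    have : (A.natDegree : ℤ) ≥ e := by omega
    nlinarith [Int.natCast_nonneg ν])

lemma nat1 (A : K[X]) : Wle 1 A A.natDegree := (nat A).mono (by simp)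

lemma const (c : K) (h : 0 ≤ n) : Wle ν (C c) n := (nat _).mono (by simpa using h)

lemma pow (h : Wle ν A n) (k : ℕ) : Wle ν (A ^ k) (n * k) := by
  induction k with
  | zero => simpa using const (ν := ν) (1 : K) le_rfl
  | succ k ih => rw [pow_succ]; exact (ih.mul h).mono (by push_cast; linarith)

lemma sum {α : Type*} {s : Finset α} {g : α → K[X]} (h : ∀ i ∈ s, Wle ν (g i) n) :
    Wle ν (∑ i ∈ s, g i) n := fun e he => by
  rw [finsetSum_coeff]; exact sum_eq_zero fun i hi => h i hi e he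

lemma der (h : Wle 1 A n) : Wle 1 (derivative A) (n - 1) := fun e he => by
  rw [coeff_derivative, h (e + 1) (by push_cast at he ⊢; linarith), zero_mul]

lemma euler (h : Wle 1 A n) : Wle 1 (X * derivative A - C (n : K) * A) (n - 1) := fun e he => by
  have e1 : (X * derivative A).coeff e = e * A.coeff e := by
    rcases e with _ | e
    · simp
    · rw [coeff_X_mul, coeff_derivative]; push_cast; ring
  rw [coeff_sub, e1, coeff_C_mul]
  rcases eq_or_ne n e with rfl | hn
  · simp
  · rw [h e (by push_cast at he ⊢; omega)]; simp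

lemma comp {f : K[X]} (h : Wle f.natDegree A n) : Wle 1 (A.comp f) n := by
  rw [Polynomial.comp, eval₂_eq_sum_range]
  refine sum fun e _ => ?_
  by_cases he : n < f.natDegree * e
  · rw [h e he]; simpa using zero
  · exact (((nat1 f).pow e).C_mul _).mono (not_lt.mp he)

lemma le (h : Wle 1 A n) (hA : A ≠ 0) : (A.natDegree : ℤ) ≤ n := by
  by_contra hc
  exact leadingCoeff_ne_zero.mpr hA (h _ (by push_cast; omega))

end Wle

lemma adic [Nontrivial K] {f : K[X]} {r : ℕ} (hf : f.Monic) (hd : f.natDegree = r + 1) (A : K[X]) :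
    ∀ n : ℤ, Wle 1 A n → ∃ As : Fin (r + 1) → K[X], (∀ k, Wle (r + 1) (As k) (n - (k : ℕ))) ∧
      A = ∑ k, (As k).comp f * X ^ (k : ℕ) := by
  have low : ∀ R : K[X], R.natDegree < r + 1 →
      R = ∑ k : Fin (r + 1), (C (R.coeff k)).comp f * X ^ (k : ℕ) := fun R hR => by
    conv_lhs => rw [R.as_sum_range' _ hR, sum_range]
    simp [C_mul_X_pow_eq_monomial]
  induction h : A.natDegree using Nat.strong_induction_on generalizing A with
  | _ m ih =>
    intro n hn
    by_cases hm : A.natDegree < r + 1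
    · refine ⟨fun k => C (A.coeff k), fun k => ?_, low A hm⟩
      by_cases hk : n < (k : ℕ)
      · beta_reduce; rw [hn k (by simpa using hk)]; simpa using Wle.zero
      · exact Wle.const _ (by omega)
    · have hA : A ≠ 0 := by rintro rfl; simp at hm
      have h1 := hn.le hA
      have h2 := natDegree_divByMonic A hf
      obtain ⟨As, h3, h4⟩ := ih _ (by omega) (A /ₘ f) rfl (n - (r + 1))
        ((Wle.nat1 _).mono (by omega))
      have h5 : (A %ₘ f).natDegree < r + 1 :=
        hd ▸ natDegree_modByMonic_lt A hf (by rintro rfl; simp at hd)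
      refine ⟨fun k => C ((A %ₘ f).coeff k) + X * As k, fun k => ?_, ?_⟩
      · refine (Wle.const _ (by have := k.2; omega)).add ?_
        exact ((Wle.nat X).mul (h3 k)).mono (by simp; omega)
      · conv_lhs => rw [← modByMonic_add_div A f, low _ h5, h4]
        simp only [add_comp, mul_comp, X_comp, add_mul, sum_add_distrib, mul_sum, mul_assoc]

section B

variable {R : Type*} [CommRing R] [Algebra K R] (F : K[X]) (p : R)

/-- Fractions `A (p) / F (p) ^ N` of degree at most `m`. -/
def B (m : ℤ) : Submodule K R where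
  carrier := {g | ∃ (N : ℕ) (A : K[X]), Wle 1 A (m + F.natDegree * N) ∧
    aeval p F ^ N * g = aeval p A}
  zero_mem' := ⟨0, 0, Wle.zero, by simp⟩
  add_mem' := by
    rintro g g' ⟨N, A, h, e⟩ ⟨N', A', h', e'⟩
    refine ⟨N + N', F ^ N' * A + F ^ N * A', ?_, ?_⟩
    · exact ((((Wle.nat1 F).pow _).mul h).mono (by push_cast; linarith)).add
        ((((Wle.nat1 F).pow _).mul h').mono (by push_cast; linarith))
    · simp only [map_add, map_mul, map_pow, ← e, ← e']; ring
  smul_mem' := by
    rintro c g ⟨N, A, h, e⟩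
    exact ⟨N, C c * A, h.C_mul c, by simp [← e, Algebra.smul_def]; ring⟩

variable {F p} {m m' : ℤ} {g g' : R}

lemma B_mono (h : g ∈ B F p m) (hm : m ≤ m') : g ∈ B F p m' := by
  obtain ⟨N, A, h, e⟩ := h
  exact ⟨N, A, h.mono (by omega), e⟩

lemma B_mul (h : g ∈ B F p m) (h' : g' ∈ B F p m') : g * g' ∈ B F p (m + m') := by
  obtain ⟨N, A, h, e⟩ := h
  obtain ⟨N', A', h', e'⟩ := h'
  refine ⟨N + N', A * A', (h.mul h').mono (by push_cast; linarith), ?_⟩
  rw [map_mul, ← e, ← e']; ring

lemma B_aeval {A : K[X]} (h : Wle 1 A m) : aeval p A ∈ B F p m := ⟨0, A, by simpa using h, by simp⟩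

lemma B_div [IsDomain K] {u : K[X]} (hF : F ≠ 0) (hu : u ∣ F) (h : aeval p u * g ∈ B F p (m + u.natDegree)) :
    g ∈ B F p m := by
  obtain ⟨c, rfl⟩ := hu
  obtain ⟨N, A, h, e⟩ := h
  refine ⟨N + 1, c * A, ((Wle.nat1 c).mul h).mono ?_, ?_⟩
  · rw [natDegree_mul (left_ne_zero_of_mul hF) (right_ne_zero_of_mul hF)]
    push_cast; linarith
  · rw [map_mul _ c, ← e, pow_succ, map_mul]; ring

lemma B_der [IsDomain K] [CharZero K] {f : K[X]} {r : ℕ} (hd : f.natDegree = r + 1) (hF : F.Monic)
    (hu : derivative f ∣ F) (θ : Derivation K R R) (hθ : θ (aeval p f) = aeval p f)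
    (h : g ∈ B F p m) : ((r : K) + 1) • θ g - (m : K) • g ∈ B F p (m - 1) := by
  obtain ⟨c, hc⟩ := hu
  obtain ⟨N, A, h, e⟩ := h
  have hc1 : Wle 1 c (F.natDegree - r) := (Wle.nat1 c).mono (by
    have h0 : derivative f * c ≠ 0 := hc ▸ hF.ne_zero
    have := natDegree_mul (left_ne_zero_of_mul h0) (right_ne_zero_of_mul h0)
    rw [← hc, natDegree_derivative, hd] at this
    omega)
  have hf1 : Wle 1 f ((r + 1 : ℕ) : ℤ) := hd ▸ Wle.nat1 f
  have hR := hc1.mul hf1.euler
  have hF1 := Wle.nat1 F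
  have e1 : aeval p (derivative f) * θ p = aeval p f := by
    rw [← hθ, θ.map_aeval, smul_eq_mul]
  have e2 : aeval p F * θ p = aeval p c * aeval p f := by rw [← e1, hc, map_mul]; ring
  have e3 := congrArg θ e
  rw [θ.leibniz, θ.leibniz_pow, θ.map_aeval, θ.map_aeval] at e3
  simp only [smul_eq_mul, nsmul_eq_mul] at e3
  have e4 : (N : R) * aeval p F ^ (N - 1) * aeval p F = N * aeval p F ^ N := by
    rcases N with _ | N
    · simp
    · simp [pow_succ, mul_assoc]
  refine ⟨N + 2, F * F * (X * derivative A - C ((m + F.natDegree * N : ℤ) : K) * A) -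
    C (N : K) * (F * A * (X * derivative F - C ((F.natDegree : ℤ) : K) * F)) -
    c * (X * derivative f - C (((r + 1 : ℕ) : ℤ) : K) * f) *
      (F * derivative A - C (N : K) * (derivative F * A)), ?_, ?_⟩
  · refine ((((hF1.mul hF1).mul h.euler).mono (by push_cast; linarith)).sub
      ((((hF1.mul h).mul hF1.euler).mono (by push_cast; linarith)).C_mul _)).sub
      ((hR.mul ((hF1.mul h.der).sub (((hF1.der.mul h).mono (by linarith)).C_mul _))).mono ?_)
    push_cast; linarith
  · have e5 : aeval p F = aeval p (derivative f) * aeval p c := by rw [hc, map_mul]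
    simp only [map_sub, map_mul, aeval_X, Algebra.smul_def, map_add, map_one,
      map_natCast, map_intCast, Int.cast_add, Int.cast_mul, Int.cast_natCast, Nat.cast_add,
      Nat.cast_one]
    linear_combination ((r : R) + 1) * aeval p F ^ 2 * e3 -
      ((r : R) + 1) * aeval p F * g * aeval p (derivative F) * θ p * e4 +
      ((r : R) + 1) * (aeval p F * aeval p (derivative A) -
        N * aeval p (derivative F) * aeval p A) * e2 -
      ((r : R) + 1) * N * aeval p F * aeval p (derivative F) * θ p * e -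
      (m : R) * aeval p F ^ 2 * e -
      p * (aeval p F * aeval p (derivative A) - N * aeval p (derivative F) * aeval p A) * e5

end B

section D

variable {r : ℕ} (a : Fin (r + 1) → ℂ)

lemma fE_monic (χ : Fin (r + 1) → K) : (B.fE χ).Monic :=
  monic_prod_of_monic _ _ fun _ _ => monic_X_add_C _

lemma fE_deg [Nontrivial K] (χ : Fin (r + 1) → K) : (B.fE χ).natDegree = r + 1 := by
  rw [B.fE, natDegree_prod_of_monic _ _ fun _ _ => monic_X_add_C _]; simp

lemma map_fE {K' : Type*} [CommRing K'] (f : K →+* K') (χ : Fin (r + 1) → K) :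
    (B.fE χ).map f = B.fE fun j => f (χ j) := by simp [B.fE, Polynomial.map_prod]

lemma exists_Dl : ∃ D : ℂ[X], D.Monic ∧ B.fE a * derivative (B.fE a) ∣ D.comp (B.fE a) := by
  have h0 : B.fE a * derivative (B.fE a) ≠ 0 := mul_ne_zero (fE_monic a).ne_zero fun h => by
    have := derivative_eq_zero.mp h
    rw [fE_deg] at this; omega
  have := (AdjoinRoot.powerBasis h0).finite
  obtain ⟨D, h1, h2⟩ := IsIntegral.of_finite ℂ (AdjoinRoot.mk (B.fE a * derivative (B.fE a)) (B.fE a))
  refine ⟨D, h1, AdjoinRoot.mk_eq_zero.mp ?_⟩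
  rw [← AdjoinRoot.aeval_eq, aeval_comp, AdjoinRoot.aeval_eq, aeval_def, h2]

/-- The denominator as a polynomial in `Q`. -/
noncomputable def Dl : ℂ[X] := (exists_Dl a).choose

lemma Dl_monic : (Dl a).Monic := (exists_Dl a).choose_spec.1

variable (K) [Algebra ℂ K]

/-- The equation of `p`. -/
noncomputable def f0 : K[X] := B.fE fun j => algebraMap ℂ K (a j)

/-- The denominator over `K`. -/
noncomputable def Dk : K[X] := (Dl a).map (algebraMap ℂ K)

/-- The denominator as a polynomial in `p`. -/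
noncomputable def Fl : K[X] := (Dk K a).comp (f0 K a)

lemma Fl_eq : Fl K a = ((Dl a).comp (B.fE a)).map (algebraMap ℂ K) := by
  rw [map_comp, map_fE, Fl, Dk, f0]

lemma Fl_monic : (Fl K a).Monic := by
  rw [Fl_eq]; exact ((Dl_monic a).comp (fE_monic a) (by rw [fE_deg]; omega)).map _

lemma Fl_deg [Nontrivial K] : (Fl K a).natDegree = (r + 1) * (Dl a).natDegree := by
  rw [Fl_eq, ((Dl_monic a).comp (fE_monic a) (by rw [fE_deg]; omega)).natDegree_map,
    natDegree_comp, fE_deg, mul_comm]

lemma mul_dvd : f0 K a * derivative (f0 K a) ∣ Fl K a := by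
  rw [Fl_eq, f0, ← map_fE, derivative_map, ← Polynomial.map_mul]
  exact Polynomial.map_dvd (algebraMap ℂ K) (exists_Dl a).choose_spec.2

lemma der_dvd : derivative (f0 K a) ∣ Fl K a := (dvd_mul_left _ _).trans (mul_dvd K a)

lemma lin_dvd (l : Fin (r + 1)) : X + C (algebraMap ℂ K (a l)) ∣ Fl K a := by
  have h : X + C (algebraMap ℂ K (a l)) ∣ f0 K a :=
    dvd_prod_of_mem (fun j => X + C (algebraMap ℂ K (a j))) (mem_univ l)
  exact (h.trans (dvd_mul_right (f0 K a) (derivative (f0 K a)))).trans (mul_dvd K a)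

variable {K}

/-- Fractions `A (Q) / Dl (Q) ^ N` of weighted degree at most `m`. -/
def S (m : ℤ) (h : PowerSeries K) : Prop :=
  ∃ (N : ℕ) (A : K[X]), Wle (r + 1) A (m + (r + 1) * (Dl a).natDegree * N) ∧
    aeval PowerSeries.X (Dk K a) ^ N * h = aeval PowerSeries.X A

variable {a} {p : Fin (r + 1) → PowerSeries K}

lemma aeval_cmp (hp : ∀ i, aeval (p i) (f0 K a) = PowerSeries.X) (A : K[X]) (i : Fin (r + 1)) :
    aeval p (A.comp (f0 K a)) i = aeval PowerSeries.X A := by
  rw [aeval_pi_apply₂, aeval_comp, hp i]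

variable [Nontrivial K]

lemma S.mem (hp : ∀ i, aeval (p i) (f0 K a) = PowerSeries.X) {m : ℤ} {h : PowerSeries K}
    (hS : S a m h) : (fun _ => h) ∈ B (Fl K a) p m := by
  obtain ⟨N, A, h1, h2⟩ := hS
  refine ⟨N, A.comp (f0 K a), Wle.comp ?_, funext fun i => ?_⟩
  · rw [f0, fE_deg, Fl_deg]; simpa using h1
  · rw [Pi.mul_apply, Pi.pow_apply, Fl, aeval_cmp hp, aeval_cmp hp, h2]

lemma decomp (ha : Function.Injective a) (hp : ∀ i, aeval (p i) (f0 K a) = PowerSeries.X)
    (h0 : ∀ i, PowerSeries.constantCoeff (p i) = -algebraMap ℂ K (a i)) {m : ℤ}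
    {g : Fin (r + 1) → PowerSeries K}
    (hg : g ∈ B (Fl K a) p m) : ∃ h : Fin (r + 1) → PowerSeries K,
      (∀ k : Fin (r + 1), S a (m - (k : ℕ)) (h k)) ∧
        ∀ i, g i = ∑ k : Fin (r + 1), p i ^ (k : ℕ) * h k := by
  have hV : IsUnit (Matrix.vandermonde p).det := by
    rw [PowerSeries.isUnit_iff_constantCoeff, Matrix.det_vandermonde]
    simp only [map_prod, map_sub, h0, ← map_neg]
    simp only [← map_prod, ← map_sub]
    refine (IsUnit.mk0 _ (prod_ne_zero_iff.mpr fun i _ => prod_ne_zero_iff.mpr fun j hj => ?_)).map _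
    exact sub_ne_zero.mpr fun h => (mem_Ioi.mp hj).ne' (ha (neg_injective h))
  obtain ⟨N, A, h1, h2⟩ := hg
  obtain ⟨As, h3, h4⟩ := adic (fE_monic fun j => algebraMap ℂ K (a j)) (fE_deg _) A _ h1
  have e : (Matrix.vandermonde p).mulVec ((Matrix.vandermonde p)⁻¹.mulVec g) = g := by
    rw [Matrix.mulVec_mulVec, Matrix.mul_nonsing_inv _ hV, Matrix.one_mulVec]
  refine ⟨(Matrix.vandermonde p)⁻¹.mulVec g, fun k => ⟨N, As k, (h3 k).mono ?_, ?_⟩, fun i => ?_⟩
  · rw [Fl_deg]; push_cast; linarith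
  · have e1 : (Matrix.vandermonde p).mulVec (fun k => aeval PowerSeries.X (As k)) =
        (aeval PowerSeries.X (Dk K a) ^ N : PowerSeries K) • g := funext fun i => by
      have := congrFun h2 i
      rw [Pi.mul_apply, Pi.pow_apply, Fl, aeval_cmp hp, h4, map_sum, Finset.sum_apply, ← f0] at this
      rw [Pi.smul_apply, smul_eq_mul, this]
      simp only [Matrix.mulVec, dotProduct, Matrix.vandermonde_apply, map_mul, Pi.mul_apply,
        aeval_cmp hp, map_pow, aeval_X, Pi.pow_apply, mul_comm]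
    have e2 := congrArg (Matrix.vandermonde p)⁻¹.mulVec e1
    rw [Matrix.mulVec_mulVec, Matrix.nonsing_inv_mul _ hV, Matrix.one_mulVec,
      Matrix.mulVec_smul] at e2
    exact (congrFun e2 k).symm
  · conv_lhs => rw [← e]
    simp only [Matrix.mulVec, dotProduct, Matrix.vandermonde_apply]

end D

end Vale.Agent.P269.Wkb
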