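import Vale.Agent.P269.Wkb.Psi

/-! Expansion in the basis `W_k`, clearing of denominators, and the exponential factor. -/

namespace Vale.Agent.P269.Wkb

open Fock B Finset Polynomial

variable {r : ℕ} {L : Type} [CommRing L]

variable (r L) in
/-- Polynomials in `1 / ε` and `Q / ε^(r+1)`. -/
noncomputable def ph : L[X][X] →+* RQ L :=
  eval₂RingHom (eval₂RingHom (PowerSeries.C.comp hC)
    (PowerSeries.C (sg (-(r + 1)) 1) * PowerSeries.X)) (PowerSeries.C (sg (-1) 1))

lemma ph_X : ph r L X = PowerSeries.C (sg (-1) 1) := by simp [ph]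

lemma ph_CX : ph r L (C X) = PowerSeries.C (sg (-(r + 1)) 1) * PowerSeries.X := by simp [ph]

lemma ph_CC (c : L) : ph r L (C (C c)) = PowerSeries.C (sg 0 c) := by simp [ph, hC_apply]

lemma exists_U {K : Type*} [CommRing K] (f : K →+* L) {A : K[X]} {M : ℤ} (h : Wle (r + 1) A M) :
    ∃ U : K[X][X], emb (-M - 1) (aeval PowerSeries.X (A.map f)) =
      ph r L (X * U.map (mapRingHom f)) := by
  refine ⟨∑ e ∈ range (A.natDegree + 1), C (C (A.coeff e) * X ^ e) * X ^ (M - (r + 1) * e).toNat, ?_⟩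
  conv_lhs => rw [A.as_sum_range_C_mul_X_pow]
  simp only [Polynomial.map_sum, map_sum, emb, mul_sum, Polynomial.map_mul, map_mul, map_C,
    Polynomial.map_pow, map_pow, map_X, coe_mapRingHom, ph_X, ph_CX, ph_CC, aeval_C, aeval_X,
    PowerSeries.map_X]
  refine sum_congr rfl fun e _ => ?_
  by_cases he : M < (r + 1 : ℕ) * e
  · simp [h e he, sg]
  · have : sg (-M - 1) (1 : L) = sg (-1) 1 * sg (-(r + 1)) 1 ^ e *
        sg (-1) 1 ^ (M - (r + 1) * e).toNat := by
      rw [sg_pow, sg_pow, sg_mul, sg_mul, Int.toNat_of_nonneg (by push_cast at he; omega)]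
      congr 1
      · ring
      · simp
    rw [this, PowerSeries.algebraMap_apply, PowerSeries.map_C, hC_apply]
    simp only [map_mul, map_pow, Algebra.algebraMap_self, RingHom.id_apply]
    ring

variable (L) [Algebra ℂ L] (a : Fin (r + 1) → ℂ)

/-- The denominator. -/
noncomputable def Den : RQ L := emb (-((r + 1) * (Dl a).natDegree)) (aeval PowerSeries.X (Dk L a))

lemma Den_pow (N : ℕ) : ∃ s : ℂ[X][X], Den L a ^ N = ph r L (C (X ^ ((Dl a).natDegree * N)) +
    X * s.map (mapRingHom (algebraMap ℂ L))) := by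
  obtain ⟨U, hU⟩ := exists_U (r := r) (algebraMap ℂ L) (A := Dl a - X ^ (Dl a).natDegree)
    (M := (r + 1) * (Dl a).natDegree - 1) fun e he => by
      have : (Dl a).natDegree ≤ e := by
        by_contra h
        have : (e : ℤ) + 1 ≤ (Dl a).natDegree := by omega
        push_cast at he; nlinarith
      rw [coeff_sub, coeff_X_pow]
      split_ifs with h
      · rw [h, (Dl_monic a).coeff_natDegree, sub_self]
      · rw [coeff_eq_zero_of_natDegree_lt (by omega), sub_zero]
  have e : Den L a = ph r L (C (X ^ (Dl a).natDegree) + X * U.map (mapRingHom (algebraMap ℂ L))) := by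
    rw [map_add, ← hU, map_pow, map_pow, ph_CX, mul_pow, ← map_pow, sg_pow, Den, emb, emb, Dk]
    simp only [Polynomial.map_sub, map_sub, Polynomial.map_pow, map_pow, map_X, aeval_X,
      PowerSeries.map_X, one_pow]
    ring_nf
  obtain ⟨c, hc⟩ := sub_dvd_pow_sub_pow (C (X ^ (Dl a).natDegree) + X * U : ℂ[X][X])
    (C (X ^ (Dl a).natDegree)) N
  refine ⟨U * c, ?_⟩
  have := congrArg (Polynomial.map (mapRingHom (algebraMap ℂ L))) hc
  rw [e, ← map_pow, pow_mul]
  congr 1
  simp only [Polynomial.map_sub, Polynomial.map_add, Polynomial.map_mul, Polynomial.map_pow, map_C,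
    map_X, map_pow, coe_mapRingHom] at this ⊢
  linear_combination this

variable {L}

/-- After clearing denominators, `h` is a polynomial without constant term in `1 / ε`. -/
def Good (δ : ℤ) (N : ℕ) (h : RQ L) : Prop :=
  ∃ U, PowerSeries.C (sg (-δ - 1) 1) * Den L a ^ N * h = ph r L (X * U)

variable {a}

lemma Good.mono {δ : ℤ} {N N' : ℕ} {h : RQ L} (H : Good a δ N h) (hN : N ≤ N') :
    Good a δ N' h := by
  obtain ⟨U, hU⟩ := H
  obtain ⟨k, rfl⟩ := Nat.exists_eq_add_of_le hN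
  obtain ⟨s, hs⟩ := Den_pow L a k
  exact ⟨_, by rw [pow_add, hs, mul_comm (Den L a ^ N), mul_left_comm, mul_assoc, hU, ← map_mul,
    mul_left_comm]⟩

lemma Good.add_emb {δ n : ℤ} {N : ℕ} {h : RQ L} (H : Good a δ N h) {g : PowerSeries L}
    (hg : S a (δ - n) g) : ∃ N', Good a δ N' (h + emb n g) := by
  obtain ⟨N', A, h1, h2⟩ := hg
  obtain ⟨U, hU⟩ := exists_U (RingHom.id L) h1
  have H' : Good a δ N' (emb n g) := ⟨_, by
    rw [← hU, map_id, ← h2, Den, emb, emb, emb, mul_pow, ← map_pow, sg_pow, map_mul, map_pow,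
      ← mul_assoc (PowerSeries.C _), ← map_mul, mul_mul_mul_comm, ← map_mul, sg_mul, sg_mul]
    congr 3
    · ring
    · simp⟩
  obtain ⟨U1, e1⟩ := H.mono (le_max_left N N')
  obtain ⟨U2, e2⟩ := H'.mono (le_max_right N N')
  exact ⟨_, U1 + U2, by rw [mul_add, e1, e2, mul_add, map_add]⟩

variable (L) in
/-- Series of nonnegative order. -/
def Lz : Subring (RH L) where
  carrier := Hat.Lo ℂ L 0
  add_mem' := add_mem
  neg_mem' := neg_mem
  zero_mem' := zero_mem _
  one_mem' := Hat.one_Lo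
  mul_mem' hx hy := by simpa using Hat.mul_Lo hx hy

variable (L) in
/-- Series of nonnegative order. -/
def LzQ : Subring (RQ L) where
  carrier := LoQ L 0
  add_mem' := add_mem
  neg_mem' := neg_mem
  zero_mem' := zero_mem _
  one_mem' := Dat.one_LoQ
  mul_mem' hx hy := by simpa using LoQ_mul hx hy

namespace Dat

variable (S : Dat L a) {p0 : Fin (r + 1) → PowerSeries ℂ}

lemma solve (ha : Function.Injective a) (hW : ∀ k i, S.W k i ∈ LoQ L 0) {K : ℤ}
    {x : Fin (r + 1) → RQ L} (hx : ∀ i, x i ∈ LoQ L K) : ∃ ρ : Fin (r + 1) → RQ L,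
    (∀ k, ρ k ∈ LoQ L K) ∧ ∀ i, x i = ∑ k : Fin (r + 1), S.W k i * ρ k := by
  let M' : Matrix (Fin (r + 1)) (Fin (r + 1)) (LzQ L) := fun i k => ⟨S.W k i, hW k i⟩
  let M := (LzQ L).subtype.mapMatrix M'
  have e0 : (PowerSeries.constantCoeff (R := RH L)).mapMatrix M =
      Matrix.vandermonde fun i => -S.al i := by
    ext1 i k
    have := II_W (ξ := -S.al i) (α := S.al) (y := S.y) k 0
    rw [PowerSeries.coeff_zero_eq_constantCoeff, map_mul,
      ← PowerSeries.coeff_zero_eq_constantCoeff_apply, coeff_II] at this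
    rw [dn_zero, Ring.inverse_one, one_mul, nn_zero] at this
    exact this
  obtain ⟨c, hc, e1⟩ : ∃ c ∈ Lz L, c * PowerSeries.coeff 0 M.det = 1 := by
    rw [PowerSeries.coeff_zero_eq_constantCoeff, RingHom.map_det, e0, Matrix.det_vandermonde]
    choose! c h1 h2 using fun i j (h : j ≠ i) => S.al_inv ha h 0
    refine ⟨∏ i, ∏ j ∈ Ioi i, c j i, prod_mem fun i _ => prod_mem fun j hj =>
      (h1 j i (mem_Ioi.mp hj).ne).1, ?_⟩
    simp only [← prod_mul_distrib]
    refine prod_eq_one fun i _ => prod_eq_one fun j hj => ?_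
    linear_combination h2 j i (mem_Ioi.mp hj).ne
  have hu : IsUnit M.det := by
    rw [PowerSeries.isUnit_iff_constantCoeff, ← PowerSeries.coeff_zero_eq_constantCoeff_apply]
    exact .of_mul_eq_one_right c e1
  refine ⟨M⁻¹.mulVec x, fun k => div_mem (U := Lz L) (fun u hu v hv => by
    simpa using Hat.mul_Lo hu hv) hc e1 ?_ ?_, fun i => ?_⟩
  · rw [← RingHom.map_det]; exact M'.det.2
  · have := congrFun (M.det_smul_inv_mulVec_eq_cramer x hu) k
    rw [Pi.smul_apply, smul_eq_mul] at this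
    rw [this, Matrix.cramer_eq_adjugate_mulVec, ← RingHom.map_adjugate]
    exact sum_mem (S := LoQ L K) fun j _ => by simpa using LoQ_mul (M'.adjugate k j).2 (hx j)
  · have : M.mulVec (M⁻¹.mulVec x) = x := by
      rw [Matrix.mulVec_mulVec, Matrix.mul_nonsing_inv _ hu, Matrix.one_mulVec]
    exact (congrFun this i).symm

lemma exp_Lo (ha : Function.Injective a) {i : Fin (r + 1)} {p u : PowerSeries ℂ}
    (h0 : cf 0 (S.P i) = scL L p) (hu : th ℂ u = p + PowerSeries.C (a i))
    (hu0 : PowerSeries.constantCoeff u = 0) (D : ℕ) : ∀ d ≤ D, PowerSeries.coeff d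
      ((∑ m ∈ range (D + 1), ((m.factorial : ℂ)⁻¹) • (PowerSeries.map (algebraMap ℂ (RH L)) u *
        PowerSeries.C (sg (-1) S.zi)) ^ m) * S.I i) ∈ Hat.Lo ℂ L 0 := by
  have hL : S.P i ∈ LoQ L 0 := fun d => (S.P_U ha i d).1
  have e1 : th _ (PowerSeries.map (algebraMap ℂ (RH L)) u) =
      emb 0 (cf 0 (S.P i)) + PowerSeries.C (algebraMap ℂ _ (a i)) := by
    rw [h0, emb_scL, ← PowerSeries.map_C, ← map_add, ← hu]
    ext1 d; simp
  have e2 : PowerSeries.X ∣ PowerSeries.map (algebraMap ℂ (RH L)) u := by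
    simp [PowerSeries.X_dvd_iff, ← PowerSeries.coeff_zero_eq_constantCoeff_apply, hu0]
  generalize PowerSeries.map (algebraMap ℂ (RH L)) u = w at *
  obtain ⟨v, hv⟩ : ∃ v, v = w * PowerSeries.C (sg (-1) S.zi) := ⟨_, rfl⟩
  rw [← hv]
  have e3 : ∀ D : ℕ, th _ (∑ m ∈ range (D + 1), ((m.factorial : ℂ)⁻¹) • v ^ m) =
      th _ v * (∑ m ∈ range (D + 1), ((m.factorial : ℂ)⁻¹) • v ^ m - (D.factorial : ℂ)⁻¹ • v ^ D) :=
    fun D => by
    induction D with
    | zero => simp
    | succ D ih =>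
      rw [sum_range_succ _ (D + 1), map_add, ih, add_sub_cancel_right, mul_sub, sub_add,
        sub_eq_self, sub_eq_zero, Derivation.map_smul_of_tower, Derivation.leibniz_pow,
        ← Nat.cast_smul_eq_nsmul ℂ, smul_smul, smul_eq_mul, mul_smul_comm, mul_comm]
      congr 1
      rw [Nat.factorial_succ, Nat.cast_mul, mul_inv, mul_right_comm,
        inv_mul_cancel₀ (Nat.cast_ne_zero.mpr D.succ_ne_zero), one_mul]
  obtain ⟨g, hg⟩ : ∃ g, g = th _ v + th _ (S.I i) * S.J i := ⟨_, rfl⟩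
  have e4 : g ∈ LoQ L 0 := by
    have : g = PowerSeries.C (sg (-1) S.zi) * (emb 0 (cf 0 (S.P i)) - S.P i -
        PowerSeries.C (sg 1 (S.c i))) := by
      have h1 := congrArg PowerSeries.C S.y_mul
      have h2 := S.P_eq i
      rw [map_mul, map_one] at h1
      rw [al, map_add] at h2
      rw [hg, hv, der_mul, e1, th_C]
      linear_combination PowerSeries.C (sg (-1) S.zi) * h2 - th _ (S.I i) * S.J i * h1
    rw [this]
    exact LoQ_mono (LoQ_mul (LoQ_C (sg_Lo _ _)) (sub_mem (LoQ_succ (sub_mem (emb_LoQ _ _) hL)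
      (by simp [cf_emb])) (LoQ_C (sg_Lo _ _)))) (by omega)
  have e5 : PowerSeries.coeff 0 g = 0 := by
    rw [hg, map_add, PowerSeries.coeff_zero_eq_constantCoeff, map_mul]
    simp only [← PowerSeries.coeff_zero_eq_constantCoeff_apply, coeff_th]
    simp
  have e6 : PowerSeries.X ∣ v := hv ▸ e2.mul_right _
  have e7 : PowerSeries.X ^ (D + 1) ∣ th _ v * ((D.factorial : ℂ)⁻¹ • v ^ D) * S.I i := by
    rw [pow_succ', Algebra.smul_def]
    exact (mul_dvd_mul (dvd_mul_right _ _) ((pow_dvd_pow_of_dvd e6 D).mul_left _)).mul_right _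
  have e8 : PowerSeries.constantCoeff v = 0 := PowerSeries.X_dvd_iff.mp e6
  have e9 := e3 D
  have e10 : PowerSeries.coeff 0 ((∑ m ∈ range (D + 1), ((m.factorial : ℂ)⁻¹) • v ^ m) * S.I i) = 1 := by
    rw [PowerSeries.coeff_zero_eq_constantCoeff, map_mul,
      ← PowerSeries.coeff_zero_eq_constantCoeff_apply (S.I i), I, coeff_II, sum_range_succ']
    simp [Algebra.smul_def, e8]
  generalize ∑ m ∈ range (D + 1), ((m.factorial : ℂ)⁻¹) • v ^ m = E at *
  have e11 : th _ (E * S.I i) = g * (E * S.I i) - th _ v * ((D.factorial : ℂ)⁻¹ • v ^ D) * S.I i := by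
    rw [der_mul, e9, hg]
    linear_combination (-E * th _ (S.I i)) * S.I_J i
  intro d hd
  induction d using Nat.strong_induction_on with
  | _ d ih =>
    rcases Nat.eq_zero_or_pos d with rfl | h
    · exact e10 ▸ Hat.one_Lo
    have := congrArg (PowerSeries.coeff d) e11
    rw [map_sub, PowerSeries.X_pow_dvd_iff.mp e7 d (by omega), sub_zero, coeff_th, ← nsmul_eq_mul,
      ← Nat.cast_smul_eq_nsmul ℂ] at this
    rw [(eq_inv_smul_iff₀ (Nat.cast_ne_zero.mpr h.ne')).mpr this]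
    have h1 : PowerSeries.coeff d (g * (E * S.I i)) ∈ Lz L := by
      rw [PowerSeries.coeff_mul]
      refine sum_mem fun q hq => ?_
      have h2 := mem_antidiagonal.mp hq
      rcases Nat.eq_zero_or_pos q.1 with h3 | h3
      · rw [h3, e5, zero_mul]; exact zero_mem _
      · exact mul_mem (e4 _) (ih _ (by omega) (by omega))
    exact fun n hn => by rw [Hat.co_smul, h1 n hn, smul_zero]

variable [IsDomain L] [CharZero L]

lemma approx (ha : Function.Injective a) (hp : IsRt L a p0)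
    (h0 : ∀ i, cf 0 (S.P i) = scL L (p0 i)) {δ : ℤ} {x : Fin (r + 1) → RQ L}
    (hx : x ∈ AA L a p0 δ) (M : ℕ) : ∃ h : Fin (r + 1) → RQ L,
      (∀ k : Fin (r + 1), ∃ N, Good a (δ - (k : ℕ)) N (h k)) ∧
      (fun i => x i - ∑ k : Fin (r + 1), S.W k i * h k) ∈ AA L a p0 δ ∧
      ∀ i, x i - ∑ k : Fin (r + 1), S.W k i * h k ∈ LoQ L M := by
  have hW := S.AA_W hp (S.AA_P ha hp h0)
  induction M with
  | zero => exact ⟨0, fun k => ⟨0, 0, by simp⟩, by simpa using hx, by simpa using hx.1⟩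
  | succ M ih =>
    obtain ⟨h, h1, h2, h3⟩ := ih
    obtain ⟨g, h4, h5⟩ := decomp ha hp.1 hp.2 (h2.2 M)
    refine ⟨fun k => h k + emb M (g k), fun k => ?_, ?_, fun i => ?_⟩
    · obtain ⟨N, hN⟩ := h1 k
      exact hN.add_emb (by rw [sub_right_comm]; exact h4 k)
    · simp only [mul_add, sum_add_distrib, ← sub_sub]
      convert sub_mem h2 (sum_mem (S := AA L a p0 δ) (t := univ) fun (k : Fin (r + 1)) _ =>
        AA_mono (AA_mul (hW k).1 (AA_emb (δ := δ - (k : ℕ)) (Int.natCast_nonneg M)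
          (B_mono ((h4 k).mem hp.1) (by omega)))) (by omega)) using 1
      funext i
      rw [Pi.sub_apply, Finset.sum_apply]
    · simp only [mul_add, sum_add_distrib, ← sub_sub, Nat.cast_succ]
      refine LoQ_succ (sub_mem (h3 i) (sum_mem fun (k : Fin (r + 1)) _ =>
        LoQ_mono (LoQ_mul ((hW k).1.1 i) (emb_LoQ M _)) (by omega))) ?_
      rw [map_sub, h5, map_sum, sub_eq_zero]
      refine sum_congr rfl fun k _ => ?_
      have := cf_lead ((hW k).1.1 i) (emb_LoQ (M : ℤ) (g k))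
      rwa [zero_add, cf_emb, if_pos rfl, (hW k).2, h0, eq_comm] at this

theorem lin (ha : Function.Injective a) (hp : IsRt L a p0)
    (h0 : ∀ i, cf 0 (S.P i) = scL L (p0 i)) {x : Fin (r + 1) → Fin (r + 1) → RQ L}
    (hx : ∀ k : Fin (r + 1), x k ∈ AA L a p0 (k : ℕ)) (K : ℤ) :
    ∃ (N : ℕ) (h ρ : Fin (r + 1) → Fin (r + 1) → RQ L),
      (∀ k' k, ρ k' k ∈ LoQ L K) ∧
      (∀ k' k : Fin (r + 1), Good a ((k : ℕ) - (k' : ℕ)) N (h k' k)) ∧
      ∀ i k, x k i = ∑ k' : Fin (r + 1), S.W k' i * (h k' k + ρ k' k) := by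
  choose h h1 _ h3 using fun k => S.approx ha hp h0 (hx k) K.toNat
  choose N hN using h1
  choose ρ h4 h5 using fun k => S.solve ha (fun k => (S.AA_W hp (S.AA_P ha hp h0) k).1.1) (h3 k)
  refine ⟨univ.sup fun q : _ × _ => N q.1 q.2, fun k' k => h k k', fun k' k => ρ k k',
    fun k' k => LoQ_mono (h4 k k') (by omega), fun k' k => (hN k k').mono
      (le_sup (f := fun q : _ × _ => N q.1 q.2) (mem_univ (k, k'))), fun i k => ?_⟩
  simp only [mul_add, sum_add_distrib, ← h5, add_sub_cancel]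

end Dat

end Vale.Agent.P269.Wkb
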