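import Vale.Agent.P269.Wkb.Ric
import Mathlib.NumberTheory.BernoulliPolynomials

/-! The derivative of the logarithm in the direction of the weights. -/

namespace Vale.Agent.P269.Wkb

open Fock B Finset Polynomial

section gen

variable {R A : Type*} [CommRing R] [CommRing A] [Algebra R A] (D : Derivation R A A)

lemma der_mul (x y : A) : D (x * y) = D x * y + x * D y := by
  rw [D.leibniz, smul_eq_mul, smul_eq_mul]; ring

lemma der_inv {x y : A} (h : x * y = 1) : D y = -(D x * y * y) := by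
  have := congrArg D h
  rw [der_mul, D.map_one_eq_zero] at this
  linear_combination y * this - D y * h

lemma der_prod {ι : Type*} {s : Finset ι} {f g : ι → A} {u : A}
    (h : ∀ j ∈ s, u * D (f j) = f j * g j) :
    u * D (∏ j ∈ s, f j) = (∏ j ∈ s, f j) * ∑ j ∈ s, g j := by
  classical
  induction s using Finset.induction_on with
  | empty => simp
  | insert j s hj ih =>
    rw [prod_insert hj, sum_insert hj, der_mul]
    linear_combination (∏ j ∈ s, f j) * h j (mem_insert_self _ _) +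
      f j * ih fun k hk => h k (mem_insert_of_mem hk)

lemma inv_rel {p q s t : A} (hp : IsUnit p) (hq : IsUnit q) (h : p * s = t * q) :
    t * Ring.inverse p = s * Ring.inverse q := by
  linear_combination (-Ring.inverse p * Ring.inverse q) * h +
    s * Ring.inverse q * Ring.mul_inverse_cancel p hp -
    t * Ring.inverse p * Ring.mul_inverse_cancel q hq

end gen

/-- Bernoulli polynomials. -/
noncomputable def bern (n : ℕ) : ℂ[X] := (Polynomial.bernoulli n).map (algebraMap ℚ ℂ)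

/-- The coefficients of the Riemann-Roch series. -/
noncomputable def ka (b : ℂ) (n : ℕ) : ℂ := -(-b⁻¹) ^ n * b / n

lemma ka_mul (b : ℂ) (n : ℕ) : ka b (n + 1) * (n + 1) = -(-b⁻¹) ^ (n + 1) * b := by
  rw [ka, Nat.cast_succ, div_mul_cancel₀ _ (Nat.cast_add_one_ne_zero n)]

variable {r : ℕ} {L : Type} [CommRing L] [Algebra ℂ L] {a : Fin (r + 1) → ℂ} (S : Dat L a)

namespace Dat

/-- Homogeneous Bernoulli polynomials. -/
noncomputable def be (w : L) (n : ℕ) : L := S.z ^ n * aeval (w * S.zi) (bern n)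

lemma D_zi : S.D S.zi = 0 := by rw [der_inv S.D S.hz, S.Dz]; simp

lemma T_zi (l : Fin (r + 1)) : S.T l S.zi = S.zi := by
  have := congrArg (S.T l) S.hz
  rw [map_mul, S.Tz, map_one] at this
  linear_combination S.zi * this - S.T l S.zi * S.hz

lemma D_be {w : L} {b : ℂ} (h : S.D w = algebraMap ℂ L b) (n : ℕ) :
    S.D (S.be w (n + 1)) = ((n + 1 : ℂ) * b) • S.be w n := by
  have e : derivative (bern (n + 1)) = (n + 1) * bern n := by
    simp [bern, derivative_bernoulli_add_one]
  rw [be, der_mul, S.D.leibniz_pow, S.Dz, S.D.map_aeval, e, der_mul, D_zi, h, be]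
  simp only [smul_eq_mul, Algebra.smul_def, map_mul, map_add, map_natCast, map_one]
  linear_combination ((n + 1) * algebraMap ℂ L b * S.z ^ n * aeval (w * S.zi) (bern n)) * S.hz

lemma be_add (w : L) (n : ℕ) :
    S.be (w + S.z) (n + 1) - S.be w (n + 1) = (n + 1 : ℂ) • (S.z * w ^ n) := by
  have e : (bern (n + 1)).comp (1 + X) = bern (n + 1) + ((n : ℂ[X]) + 1) * X ^ n := by
    have := congrArg (Polynomial.map (algebraMap ℚ ℂ)) (bernoulli_comp_one_add_X (n + 1))
    simpa [bern, map_comp] using this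
  have e1 := congrArg (aeval (w * S.zi)) e
  have e2 : S.z ^ n * S.zi ^ n = 1 := by rw [← mul_pow, S.hz, one_pow]
  rw [aeval_comp] at e1
  simp only [map_add, map_one, aeval_X, map_mul, map_natCast, map_pow] at e1
  rw [be, be, add_mul, S.hz, add_comm _ (1 : L), e1, Algebra.smul_def]
  simp only [map_add, map_one, map_natCast, mul_pow]
  linear_combination (n + 1) * S.z * w ^ n * e2

/-- One summand of the Riemann-Roch series. -/
noncomputable def lw (b : ℂ) (w : L) : RH L :=
  Hat.ofPS ℂ (PowerSeries.mk fun n => ka b n • S.be w n)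

lemma co_lw (b : ℂ) (w : L) (n : ℕ) : (S.lw b w).co n = ka b n • S.be w n := by simp [lw]

lemma lw_Lo (b : ℂ) (w : L) : S.lw b w ∈ Hat.Lo ℂ L 1 := fun n hn => by
  rcases eq_or_ne n 0 with rfl | h
  · simpa [ka] using S.co_lw b w 0
  · exact Hat.ofPS_Lo _ n (by omega)

lemma eu_lw {b : ℂ} (hb : b ≠ 0) {w : L} (h : S.D w = algebraMap ℂ L b) :
    e0 L (S.lw b w) + S.d0 (S.lw b w) = algebraMap ℂ _ b := by
  refine Hat.ext_nat (fun n hn => by simp [S.lw_Lo b w n (by omega), S.lw_Lo b w (n + 1) (by omega)])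
    (sg_Lo _ _) fun n => ?_
  rw [Hat.co_add, co_e0, co_d0, ← Nat.cast_succ, co_lw, co_lw, Derivation.map_smul, S.D_be h,
    smul_smul, smul_smul, ← add_smul, ← mul_assoc, ka_mul, algebraMap_sg, co_sg]
  rcases n with _ | n
  · simp [be, bern, hb, Algebra.algebraMap_eq_smul_one]
  · rw [if_neg (by omega), Int.cast_natCast, mul_comm _ (ka _ _), Nat.cast_succ, ka_mul]
    convert zero_smul ℂ _
    rw [pow_succ _ (n + 1)]; field_simp; ring

lemma t0_lw (l : Fin (r + 1)) (b : ℂ) (w : L) : S.t0 l (S.lw b w) = S.lw b (S.T l w) :=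
  Hat.ext_nat (fun n hn => by simp [S.lw_Lo b w n (by omega)]) (Hat.ofPS_Lo _) fun n => by
    rw [co_t0, co_lw, co_lw, map_smul, be, be, map_mul, map_pow, ← aeval_algHom_apply, map_mul,
      S.Tz, T_zi]

lemma lw_add {b : ℂ} (hb : b ≠ 0) (w : L) :
    (algebraMap ℂ (RH L) b + sg 1 w) * (S.lw b (w + S.z) - S.lw b w) = algebraMap ℂ _ b * S.y := by
  have hL := sub_mem (S.lw_Lo b (w + S.z)) (S.lw_Lo b w)
  have e : ∀ n : ℕ, (S.lw b (w + S.z) - S.lw b w).co (n + 1) =
      (-(-b⁻¹) ^ (n + 1) * b) • (S.z * w ^ n) := fun n => by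
    rw [← Nat.cast_succ, Hat.co_sub, co_lw, co_lw, ← smul_sub, be_add, smul_smul, ka_mul]
  generalize S.lw b (w + S.z) - S.lw b w = x at *
  refine Hat.ext (funext fun n => ?_)
  rw [add_mul, Hat.co_add, algebraMap_sg, y, co_sg_mul, co_sg_mul, co_sg_mul, co_sg, sub_zero]
  rcases lt_trichotomy n 1 with h | rfl | h
  · simp [hL n h, hL (n - 1) (by omega), h.ne]
  · simpa [hL 0 zero_lt_one, hb] using congrArg (algebraMap ℂ L b * ·) (e 0)
  · obtain ⟨m, rfl⟩ : ∃ m : ℕ, n = (m + 1 : ℕ) + 1 := ⟨(n - 2).toNat, by omega⟩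
    rw [e, add_sub_cancel_right, Nat.cast_succ, e, if_neg (by omega), ← Algebra.smul_def, smul_smul,
      mul_smul_comm, mul_left_comm w, ← pow_succ', ← add_smul, mul_zero]
    convert zero_smul ℂ _
    rw [pow_succ _ (m + 1)]; field_simp; ring

/-- The sum over the other components. -/
noncomputable def La (i : Fin (r + 1)) : RH L :=
  ∑ l ∈ univ.erase i, S.lw (a l - a i) (S.c l - S.c i)

/-- The derivative in the direction `a`. -/
noncomputable def da : Derivation ℂ (RQ L) (RQ L) := pD S.d0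

/-- The shift. -/
noncomputable def TT (l : Fin (r + 1)) : RQ L →+* RQ L := PowerSeries.map (S.t0 l)

/-- The second basic series. -/
noncomputable def Psi (i : Fin (r + 1)) : RQ L :=
  PowerSeries.C S.y * (S.da (S.I i) * S.J i) + PowerSeries.C (S.La i)

lemma d0_y : S.d0 S.y = 0 := by rw [y, d0_sg, S.Dz, sg, map_zero]

lemma d0_al (j : Fin (r + 1)) : S.d0 (S.al j) = algebraMap ℂ _ (a j) := by
  rw [al, map_add, Derivation.map_algebraMap, d0_sg, S.Dc, zero_add]; rfl

lemma e0_y : e0 L S.y = S.y := by simp [y, e0_sg]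

lemma t0_y (l : Fin (r + 1)) : S.t0 l S.y = S.y := by rw [y, t0_sg, S.Tz]

lemma t0_al (l j : Fin (r + 1)) : S.t0 l (S.al j) = S.al j + if j = l then S.y else 0 := by
  rw [al, map_add, algebraMap_sg, t0_sg, t0_sg, S.Tc, sg_add, AlgHom.commutes, add_assoc]
  split_ifs <;> simp [y, sg]

lemma da_C (c : RH L) : S.da (PowerSeries.C c) = PowerSeries.C (S.d0 c) := pD_C _ _

lemma th_da (x : RQ L) : th _ (S.da x) = S.da (th _ x) := by
  ext1 d; simp only [da, coeff_th, coeff_pD, ← nsmul_eq_mul, map_nsmul]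

lemma I_J (i : Fin (r + 1)) : S.I i * S.J i = 1 := II_JJ

lemma P_eq (i : Fin (r + 1)) :
    S.P i = -PowerSeries.C (S.al i) - PowerSeries.C S.y * (th _ (S.I i) * S.J i) := by
  rw [← map_neg]; rfl

lemma da_P (i : Fin (r + 1)) : S.da (S.P i) = -PowerSeries.C (algebraMap ℂ _ (a i)) -
    PowerSeries.C S.y * S.da (th _ (S.I i) * S.J i) := by
  rw [P_eq, map_sub, map_neg, der_mul, da_C, da_C, d0_y, d0_al]; simp

lemma th_Psi (i : Fin (r + 1)) :
    th _ (S.Psi i) = -S.da (S.P i) - PowerSeries.C (algebraMap ℂ _ (a i)) := by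
  simp only [Psi, da_P, map_add, der_mul, th_C, th_da, der_inv _ (S.I_J i)]
  ring

lemma euler (ha : Function.Injective a) (i : Fin (r + 1)) :
    pD (e0 L) (S.I i) + S.da (S.I i) + ((r : RQ L) + 1) * th _ (S.I i) = 0 := by
  ext1 d
  have e1 : ∀ j, (e0 L + S.d0) (S.al j) = S.al j := fun j => by
    rw [Derivation.add_apply, d0_al, al, map_add, Derivation.map_algebraMap, e0_sg]
    simp [add_comm]
  have e2 : 1 * (e0 L + S.d0) (dn (-S.al i) S.al S.y d) =
      dn (-S.al i) S.al S.y d * ∑ _j : Fin (r + 1), ∑ _m ∈ range d, 1 :=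
    der_prod _ fun j _ => der_prod _ fun m _ => by
      rw [← Nat.cast_succ, ← nsmul_eq_mul, map_sub, map_add, map_neg, map_nsmul, e1, e1]
      simp [e0_y, d0_y]
  have e3 := Ring.mul_inverse_cancel _ (S.dn_unit ha i d)
  have e4 := der_inv (e0 L + S.d0) e3
  rw [← Nat.cast_succ, ← nsmul_eq_mul, map_add, map_add, map_nsmul, da, coeff_pD, coeff_pD,
    coeff_th, I, coeff_II, ← Derivation.add_apply, e4, ← one_mul ((e0 L + S.d0) _), e2]
  simp only [sum_const, card_range, card_univ, Fintype.card_fin, nsmul_eq_mul, map_zero]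
  linear_combination (-((r + 1 : ℕ) : RH L) * d * Ring.inverse (dn (-S.al i) S.al S.y d)) * e3

lemma eu_La (ha : Function.Injective a) (i : Fin (r + 1)) : e0 L (S.La i) + S.d0 (S.La i) =
    algebraMap ℂ _ (∑ l, a l) - ((r : RH L) + 1) * algebraMap ℂ _ (a i) := by
  rw [La, map_sum, map_sum, ← sum_add_distrib, sum_congr rfl fun l hl => S.eu_lw
    (sub_ne_zero.mpr (ha.ne (ne_of_mem_erase hl))) (by simp [S.Dc]), sum_erase _ (by simp)]
  simp

lemma E_Psi (ha : Function.Injective a) (i : Fin (r + 1)) : pD (e0 L) (S.Psi i) =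
    PowerSeries.C (algebraMap ℂ _ (∑ l, a l)) - S.da (S.Psi i) + ((r : RQ L) + 1) * S.da (S.P i) := by
  have e1 := S.euler ha i
  have e2 : pD (e0 L) (S.da (S.I i)) = S.da (pD (e0 L) (S.I i)) - S.da (S.I i) := by
    ext1 d; simp [da, e0_d0]
  have e3 := congrArg S.da e1
  have e4 := congrArg PowerSeries.C (S.eu_La ha i)
  have e5 : S.da ((r : RQ L) + 1) = 0 := by simp
  rw [map_add, map_add, der_mul, e5, map_zero] at e3
  simp only [map_add, map_sub, map_mul, map_natCast, map_one] at e4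
  simp only [Psi, da_P, map_add, der_mul, der_inv _ (S.I_J i), pD_C, da_C, e0_y, d0_y, e2, map_zero]
  linear_combination e4 + PowerSeries.C S.y * S.J i * e3 -
    PowerSeries.C S.y * S.da (S.I i) * S.J i * S.J i * e1

lemma I_lin (i l : Fin (r + 1)) (d : ℕ) :
    PowerSeries.coeff d (S.I i * (S.P i + PowerSeries.C (S.al l))) =
      (S.al l - S.al i - d * S.y) * Ring.inverse (dn (-S.al i) S.al S.y d) := by
  have := II_V (ξ := -S.al i) (α := S.al) (y := S.y) ((X + C (S.al l)) * 1) d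
  rw [V_lin, coeff_II] at this
  simp only [V_one, mul_one, Derivation.map_one_eq_zero, mul_zero, sub_zero, eval_add, eval_X,
    eval_C] at this
  exact this.trans (by ring)

lemma coeff_TI (ha : Function.Injective a) (i l : Fin (r + 1)) (d : ℕ) :
    PowerSeries.coeff d (S.TT l (S.I i)) = Ring.inverse (S.t0 l (dn (-S.al i) S.al S.y d)) := by
  rw [TT, PowerSeries.coeff_map, I, coeff_II, B.map_inv _ (S.dn_unit ha i d)]

lemma T_ne (ha : Function.Injective a) {i l : Fin (r + 1)} (h : l ≠ i) :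
    PowerSeries.C (S.al l - S.al i) * S.TT l (S.I i) =
      S.I i * (S.P i + PowerSeries.C (S.al l)) * 1 := by
  ext1 d
  rw [mul_one, I_lin, PowerSeries.coeff_C_mul, S.coeff_TI ha]
  refine inv_rel ((S.dn_unit ha i d).map _) (S.dn_unit ha i d) ?_
  have e : ∀ d : ℕ, (∏ m ∈ range d, (-S.al i + (S.al l + S.y) - ((m : RH L) + 1) * S.y)) *
      (S.al l - S.al i - d * S.y) =
      (S.al l - S.al i) * ∏ m ∈ range d, (-S.al i + S.al l - ((m : RH L) + 1) * S.y) := fun d => by
    induction d with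
    | zero => simp
    | succ d ih =>
      rw [prod_range_succ, prod_range_succ, ← mul_assoc, ← ih]; push_cast; ring
  rw [map_dn, dn, dn, ← mul_prod_erase _ _ (mem_univ l), ← mul_prod_erase _ _ (mem_univ l),
    mul_right_comm, ← mul_assoc, ← e d]
  simp only [map_neg, t0_al, t0_y, if_neg h.symm, add_zero, if_true]
  congr 1
  exact prod_congr rfl fun j hj => by rw [if_neg (ne_of_mem_erase hj), add_zero]

lemma T_eq (ha : Function.Injective a) (i : Fin (r + 1)) :
    PowerSeries.X * S.TT i (S.I i) = S.I i * (S.P i + PowerSeries.C (S.al i)) *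
      PowerSeries.C (∏ j ∈ univ.erase i, (S.al j - S.al i - (1 : ℕ) * S.y)) := by
  ext1 d
  rw [PowerSeries.coeff_mul_C, I_lin]
  rcases d with _ | d
  · simp
  rw [PowerSeries.coeff_succ_X_mul, S.coeff_TI ha, mul_right_comm, ← one_mul (Ring.inverse _)]
  refine inv_rel ((S.dn_unit ha i d).map _) (S.dn_unit ha i _) ?_
  rw [map_dn, dn, dn, ← mul_prod_erase _ _ (mem_univ i), ← mul_prod_erase _ _ (mem_univ i),
    prod_range_succ, one_mul, mul_mul_mul_comm, ← prod_mul_distrib]
  simp only [map_neg, t0_al, t0_y, if_true]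
  congr 1
  · congr 1
    · exact prod_congr rfl fun m _ => by ring
    · push_cast; ring
  · refine prod_congr rfl fun j hj => ?_
    rw [if_neg (ne_of_mem_erase hj), prod_range_succ']
    congr 1
    · exact prod_congr rfl fun m _ => by push_cast; ring
    · push_cast; ring

lemma T_key {i l : Fin (r + 1)} {u G w : RQ L} (h : u * S.TT l (S.I i) = S.I i * G * w) :
    S.I i * w * (G * (S.TT l (S.Psi i) - S.Psi i) - PowerSeries.C S.y * S.da G) =
      PowerSeries.C S.y * (S.I i * G * S.da w - S.da u * S.TT l (S.I i)) +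
        S.I i * w * G * PowerSeries.C (S.t0 l (S.La i) - S.La i) := by
  have e1 := congrArg S.da h
  have e2 : S.da (S.TT l (S.I i)) = S.TT l (S.da (S.I i)) := by
    ext1 d; simp [da, TT, d0_t0]
  have e3 := congrArg (S.TT l) (S.I_J i)
  have e4 : ∀ c, S.TT l (PowerSeries.C c) = PowerSeries.C (S.t0 l c) := PowerSeries.map_C _
  simp only [der_mul, e2] at e1
  rw [map_mul, map_one] at e3
  simp only [Psi, map_add, map_mul, e4, t0_y, map_sub]
  linear_combination PowerSeries.C S.y * e1 -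
    PowerSeries.C S.y * S.TT l (S.da (S.I i)) * S.TT l (S.J i) * h +
    PowerSeries.C S.y * u * S.TT l (S.da (S.I i)) * e3 -
    PowerSeries.C S.y * w * G * S.da (S.I i) * S.I_J i

lemma T_Psi (ha : Function.Injective a) (i l : Fin (r + 1)) :
    (S.P i + PowerSeries.C (S.al l)) * (S.TT l (S.Psi i) - S.Psi i) =
      PowerSeries.C S.y * S.da (S.P i + PowerSeries.C (S.al l)) := by
  have hI : IsUnit (S.I i) := II_unit
  rw [← sub_eq_zero]
  rcases eq_or_ne l i with rfl | h
  · have e := S.T_key (S.T_eq ha l)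
    have e1 := congrArg PowerSeries.C (der_prod S.d0 (s := univ.erase l) (u := S.y)
      (f := fun j => S.al j - S.al l - (1 : ℕ) * S.y)
      (g := fun j => S.lw (a j - a l) (S.c j - S.c l) - S.t0 l (S.lw (a j - a l) (S.c j - S.c l)))
      fun j hj => by
        have h1 := ne_of_mem_erase hj
        have := S.lw_add (sub_ne_zero.mpr (ha.ne h1)) (S.c j - S.c l - (1 : ℕ) * S.z)
        rw [← al_sub] at this
        simp only [Nat.cast_one, one_mul, sub_add_cancel] at this ⊢
        simp only [t0_lw, map_sub, S.Tc, if_neg h1, if_true, add_zero, ← sub_sub, this, d0_al, d0_y]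
        ring)
    rw [sum_sub_distrib, ← map_sum (S.t0 l), ← La, map_mul, map_mul] at e1
    rw [da_C, da, pD_X] at e
    refine (hI.mul (((IsUnit.prod_iff.mpr fun j hj => ?_).map PowerSeries.C))).mul_left_cancel
      (e.trans ?_)
    · obtain ⟨c, -, e⟩ := S.al_inv ha (ne_of_mem_erase hj) 1
      exact .of_mul_eq_one_right c e
    · rw [map_sub] at e1 ⊢
      linear_combination S.I l * (S.P l + PowerSeries.C (S.al l)) * e1
  · have e := S.T_key (S.T_ne ha h)
    have e1 : S.t0 l (S.La i) - S.La i = S.lw (a l - a i) (S.c l - S.c i + S.z) -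
        S.lw (a l - a i) (S.c l - S.c i) := by
      rw [La, map_sum, ← sum_sub_distrib, sum_eq_single_of_mem l (by simp [h])]
      · simp only [t0_lw, map_sub, S.Tc, if_neg h.symm, if_true, add_zero, add_sub_right_comm]
      · intro j _ hj
        simp only [t0_lw, map_sub, S.Tc, if_neg h.symm, if_neg hj, add_zero, sub_self]
    have e2 := S.lw_add (sub_ne_zero.mpr (ha.ne h)) (S.c l - S.c i - (0 : ℕ) * S.z)
    rw [← al_sub] at e2
    simp only [Nat.cast_zero, zero_mul, sub_zero, ← e1] at e2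
    have e3 := congrArg PowerSeries.C e2
    obtain ⟨c, -, e4⟩ := S.al_inv ha h 0
    rw [Nat.cast_zero, zero_mul, sub_zero] at e4
    rw [da_C, map_sub S.d0, d0_al, d0_al, ← map_sub, Derivation.map_one_eq_zero] at e
    rw [map_mul, map_mul] at e3
    refine (((IsUnit.of_mul_eq_one_right c e4).map PowerSeries.C).mul hI).mul_left_cancel ?_
    linear_combination PowerSeries.C (S.al l - S.al i) * e +
      S.I i * (S.P i + PowerSeries.C (S.al l)) * e3 -
      PowerSeries.C S.y * PowerSeries.C (algebraMap ℂ (RH L) (a l - a i)) * S.T_ne ha h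

lemma d0_U {x : RH L} (h : x ∈ S.U) :
    S.d0 x ∈ Hat.Lo ℂ L 0 ∧ (S.d0 x).co 0 ∈ (⊥ : Subalgebra ℂ L) := by
  refine ⟨fun n hn => ?_, by simpa using h.2.2⟩
  rcases eq_or_ne n (-1) with rfl | h1
  · obtain ⟨s, hs⟩ := Algebra.mem_bot.mp h.2.1
    simp [← hs]
  · simp [h.1 (n + 1) (by omega)]

lemma Psi_mem (ha : Function.Injective a) (i : Fin (r + 1)) (d : ℕ) :
    PowerSeries.coeff d (S.Psi i) ∈ Hat.Lo ℂ L 0 ∧
      (PowerSeries.coeff d (S.Psi i)).co 0 ∈ (⊥ : Subalgebra ℂ L) := by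
  rcases Nat.eq_zero_or_pos d with rfl | hd
  · have e : PowerSeries.constantCoeff (S.da (S.I i)) = 0 := by
      rw [← PowerSeries.coeff_zero_eq_constantCoeff_apply, da, coeff_pD, I, coeff_II]; simp
    have h : S.La i ∈ Hat.Lo ℂ L 1 := sum_mem fun _ _ => S.lw_Lo _ _
    simp [Psi, e, Hat.Lo_mono zero_le_one h, h 0 zero_lt_one]
  · have e := congrArg (PowerSeries.coeff d) (S.th_Psi i)
    rw [coeff_th, map_sub, map_neg, PowerSeries.coeff_C, if_neg hd.ne', sub_zero, da, coeff_pD,
      ← nsmul_eq_mul, ← Nat.cast_smul_eq_nsmul ℂ] at e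
    have h := S.d0_U (S.P_U ha i d)
    rw [(eq_inv_smul_iff₀ (Nat.cast_ne_zero.mpr hd.ne')).mpr e]
    exact ⟨fun n hn => by rw [Hat.co_smul, Hat.co_neg, h.1 n hn]; simp,
      Subalgebra.smul_mem _ (neg_mem h.2) _⟩

variable {p0 : Fin (r + 1) → PowerSeries ℂ}

lemma AA_da {x : Fin (r + 1) → RQ L} {δ : ℤ}
    (h : (fun i => pL (hL S.D.toLinearMap) (x i)) ∈ AA L a p0 δ)
    (h0 : ∀ i d, (PowerSeries.coeff d (x i)).co 0 ∈ (⊥ : Subalgebra ℂ L)) :
    (fun i => S.da (x i)) ∈ AA L a p0 (δ - 1) := by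
  convert AA_shift h fun i => LoQ_mono (LoQ_succ (h.1 i) (PowerSeries.ext fun d => ?_)) (by omega)
    using 2 with i
  · ext1 d; rw [PowerSeries.coeff_C_mul]; rfl
  · obtain ⟨s, hs⟩ := Algebra.mem_bot.mp (h0 i d)
    simp [← hs]

variable [IsDomain L] [CharZero L]

theorem AA_Psi (ha : Function.Injective a) (hp : IsRt L a p0)
    (h0 : ∀ i, cf 0 (S.P i) = scL L (p0 i)) : ∃ s : Fin (r + 1) → PowerSeries ℂ,
    (fun i => S.Psi i - PowerSeries.map (algebraMap ℂ (RH L)) (s i)) ∈ AA L a p0 0 := by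
  have hP := S.AA_P ha hp h0
  have hd : (fun i => S.da (S.P i)) ∈ AA L a p0 0 :=
    AA_mono (S.AA_da (AA_pL _ hP) fun i d => (S.P_U ha i d).2.1) (by omega)
  have hL : ∀ i, S.Psi i ∈ LoQ L 0 := fun i d => (S.Psi_mem ha i d).1
  have hT : ∀ l, (fun i => S.TT l (S.Psi i) - S.Psi i) ∈ AA L a p0 0 := fun l => by
    refine AA_div (lin_dvd L a l) (x := fun i => S.P i + PowerSeries.C (S.al l)) ?_
      (fun i => by simp [h0, cf_al]) (fun i => sub_mem (fun d n hn => ?_) (hL i)) ?_
    · rw [natDegree_X_add_C]; exact add_mem hP (S.AA_al l)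
    · simp [TT, hL i d n hn]
    · simp only [S.T_Psi ha, map_add, da_C, d0_al, natDegree_X_add_C]
      exact AA_mono (AA_mul (AA_single zero_le_one _) (add_mem hd (AA_single le_rfl _))) (by simp)
  obtain ⟨G, hG⟩ := S.tay
  have hD : (fun i => S.da (S.Psi i)) ∈ AA L a p0 0 := by
    refine AA_mono (S.AA_da ?_ fun i d => (S.Psi_mem ha i d).2) (by omega : 0 - 1 ≤ (0 : ℤ))
    convert sum_mem (S := AA L a p0 0) (t := univ) fun l _ => AA_pL (G l) (hT l) using 1
    funext i
    ext d n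
    simp [hG, Hat.co_sum, TT]
  have hE : (fun i => pD (e0 L) (S.Psi i)) ∈ AA L a p0 0 := by
    simp only [S.E_Psi ha, ← Nat.cast_succ, ← nsmul_eq_mul]
    exact add_mem (sub_mem (AA_single le_rfl _) hD) (nsmul_mem hd _)
  choose q hq using fun i d => Algebra.mem_bot.mp (S.Psi_mem ha i d).2
  refine ⟨fun i => PowerSeries.mk (q i), ?_⟩
  convert AA_of_E hL hE using 3 with i
  rw [← emb_scL]
  congr 1
  ext1 d; simp [scL, hq]

/-- The series `y a0`. -/
noncomputable def ya (i : Fin (r + 1)) : RH L :=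
  ∑ l ∈ univ.erase i, (S.lw (a l - a i) (S.c l - S.c i) - sg 1 (S.c l - S.c i - (2⁻¹ : ℂ) • S.z))

theorem AA_main (ha : Function.Injective a) (hp : IsRt L a p0)
    (h0 : ∀ i, cf 0 (S.P i) = scL L (p0 i)) : ∃ s : Fin (r + 1) → PowerSeries ℂ, ∀ k : ℕ,
    (fun i => S.J i * (PowerSeries.C S.y * pD (e0 L) (S.I i * S.W k i) +
      (PowerSeries.map (algebraMap ℂ (RH L)) (s i) - PowerSeries.C (S.ya i)) * (S.I i * S.W k i)) -
      (PowerSeries.C (sg 1 ((k - r / 2 : ℂ) • S.z + ∑ l, S.c l)) * S.W k i +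
        ((r : RQ L) + 1) * S.W (k + 1) i)) ∈ AA L a p0 k := by
  obtain ⟨s, hs⟩ := S.AA_Psi ha hp h0
  refine ⟨fun i => s i - (r + 1) * PowerSeries.C (a i), fun k => ?_⟩
  have hW := (S.AA_W hp (S.AA_P ha hp h0) k).1
  convert sub_mem (AA_mono (δ' := k) (AA_mul (AA_single zero_le_one S.z) (AA_low hp hW)) (by omega))
    (AA_mono (AA_mul hs hW) (by omega)) using 1
  funext i
  have e1 : S.ya i + sg 1 ((k - r / 2 : ℂ) • S.z + ∑ l, S.c l) + (r + 1) * algebraMap ℂ _ (a i) =
      S.La i + (r + 1) * S.al i + k * S.y := by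
    have e2 : ∑ l ∈ univ.erase i, (S.c l - S.c i - (2⁻¹ : ℂ) • S.z) =
        ((k - r / 2 : ℂ) • S.z + ∑ l, S.c l) - (r + 1) • S.c i - k • S.z := by
      rw [sum_sub_distrib, sum_erase _ (by simp), sum_sub_distrib]
      simp only [sum_const, card_erase_of_mem (mem_univ i), card_univ, Fintype.card_fin,
        Nat.add_sub_cancel]
      module
    rw [ya, sum_sub_distrib, ← La, al, y]
    simp only [sg]
    rw [← map_sum, e2, map_sub, map_sub, map_nsmul, map_nsmul]
    simp only [nsmul_eq_mul, Nat.cast_succ]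
    ring
  have e3 := congrArg PowerSeries.C e1
  generalize sg 1 ((k - r / 2 : ℂ) • S.z + ∑ l, S.c l) = t at *
  rw [Pi.sub_apply, ← y]
  simp only [map_add, map_mul, map_natCast, map_one] at e3
  simp only [der_mul, W_succ, Psi, P_eq, map_sub, map_mul, map_add, map_natCast,
    map_one, PowerSeries.map_C, Algebra.smul_def, Int.cast_natCast]
  linear_combination -S.W k i * e3 + PowerSeries.C S.y * S.J i * S.W k i * S.euler ha i +
    (PowerSeries.C S.y * pD (e0 L) (S.W k i) + (PowerSeries.map (algebraMap ℂ (RH L)) (s i) -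
      (r + 1) * PowerSeries.C (algebraMap ℂ _ (a i)) - PowerSeries.C (S.ya i)) * S.W k i) * S.I_J i

end Dat

end Vale.Agent.P269.Wkb
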