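import Vale.Agent.P269.Wkb.AA

/-! The Riccati equation of the logarithmic derivative. -/

namespace Vale.Agent.P269.Wkb

open Fock B Finset Polynomial

section gen

variable {A : Type*} [CommRing A] {r : ℕ}

/-- `g (P - y θ) 1`. -/
noncomputable def V (y : A) (P : PowerSeries A) : A[X] →ₗ[A] PowerSeries A :=
  LinearMap.applyₗ 1 ∘ₗ (aeval (LinearMap.mulLeft A P - y • (th A).toLinearMap :
    Module.End A (PowerSeries A))).toLinearMap

variable {ξ : A} {α : Fin (r + 1) → A} {y : A} {P : PowerSeries A}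

@[simp] lemma V_one : V y P 1 = 1 := by simp [V]

lemma V_C_mul (c : A) (g : A[X]) : V y P (C c * g) = PowerSeries.C c * V y P g := by
  rw [← smul_eq_C_mul, map_smul, PowerSeries.smul_eq_C_mul]

lemma V_X_mul (g : A[X]) :
    V y P (X * g) = P * V y P g - PowerSeries.C y * th A (V y P g) := by
  simp [V, PowerSeries.smul_eq_C_mul]

lemma V_lin (c : A) (g : A[X]) : V y P ((X + C c) * g) =
    (P + PowerSeries.C c) * V y P g - PowerSeries.C y * th A (V y P g) := by
  rw [add_mul, map_add, V_C_mul, V_X_mul]; ring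

variable (ξ α y) in
/-- The hypergeometric series. -/
noncomputable def II : PowerSeries A := PowerSeries.mk fun d => nn ξ α y 0 d

variable (ξ α y) in
/-- Its inverse. -/
noncomputable def JJ : PowerSeries A := PowerSeries.invOfUnit (II ξ α y) 1

variable (ξ α y) in
/-- The logarithmic derivative. -/
noncomputable def PP : PowerSeries A :=
  PowerSeries.C ξ - PowerSeries.C y * (th A (II ξ α y) * JJ ξ α y)

lemma coeff_II (d : ℕ) : PowerSeries.coeff d (II ξ α y) = Ring.inverse (dn ξ α y d) := by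
  simp [II, nn]

lemma II_JJ : II ξ α y * JJ ξ α y = 1 :=
  PowerSeries.mul_invOfUnit _ _ (by rw [← PowerSeries.coeff_zero_eq_constantCoeff_apply, coeff_II]; simp)

lemma II_unit : IsUnit (II ξ α y) := .of_mul_eq_one _ II_JJ

lemma PP_zero : PowerSeries.coeff 0 (PP ξ α y) = ξ := by
  have : PowerSeries.constantCoeff (th A (II ξ α y)) = 0 := by
    rw [← PowerSeries.coeff_zero_eq_constantCoeff_apply, coeff_th]; simp
  simp [PP, this]

lemma II_V (g : A[X]) : ∀ d, PowerSeries.coeff d (II ξ α y * V y (PP ξ α y) g) =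
    g.eval (ξ - d * y) * PowerSeries.coeff d (II ξ α y) := by
  induction g using Polynomial.induction_on with
  | C c => intro d; rw [← mul_one (C c), V_C_mul, V_one, mul_one, mul_comm]; simp
  | add p q hp hq => intro d; simp only [map_add, mul_add, hp, hq, eval_add, add_mul]
  | monomial n c ih =>
    intro d
    have e : II ξ α y * V y (PP ξ α y) (X * (C c * X ^ n)) =
        PowerSeries.C ξ * (II ξ α y * V y (PP ξ α y) (C c * X ^ n)) -
          PowerSeries.C y * th A (II ξ α y * V y (PP ξ α y) (C c * X ^ n)) := by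
      rw [V_X_mul, (th A).leibniz, smul_eq_mul, smul_eq_mul]
      generalize V y (PP ξ α y) (C c * X ^ n) = v
      rw [PP]
      linear_combination -(PowerSeries.C y * th A (II ξ α y) * v) *
        II_JJ (ξ := ξ) (α := α) (y := y)
    rw [pow_succ', mul_left_comm, e, map_sub, PowerSeries.coeff_C_mul, PowerSeries.coeff_C_mul,
      coeff_th, ih, eval_mul (p := X), eval_X]
    ring

lemma II_W (k d : ℕ) : PowerSeries.coeff d (II ξ α y * V y (PP ξ α y) (X ^ k)) = nn ξ α y k d := by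
  rw [II_V, coeff_II, nn]; simp

lemma inv_succ (hu : ∀ d, IsUnit (dn ξ α y d)) (d : ℕ) :
    (∏ j, (ξ - ((d + 1 : ℕ) : A) * y + α j)) * Ring.inverse (dn ξ α y (d + 1)) =
      Ring.inverse (dn ξ α y d) := by
  refine (hu d).mul_left_cancel ?_
  rw [← mul_assoc, ← dn_succ, Ring.mul_inverse_cancel _ (hu _), Ring.mul_inverse_cancel _ (hu _)]

lemma V_fE {i : Fin (r + 1)} (hu : ∀ d, IsUnit (dn (-α i) α y d)) :
    V y (PP (-α i) α y) (fE α) = PowerSeries.X := by
  refine (II_unit (ξ := -α i) (α := α) (y := y)).mul_left_cancel (PowerSeries.ext fun d => ?_)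
  rw [II_V, fE, eval_prod]
  simp only [eval_add, eval_X, eval_C]
  rcases d with _ | d
  · rw [prod_eq_zero (mem_univ i) (by simp)]; simp
  · rw [PowerSeries.coeff_succ_mul_X, coeff_II, coeff_II, inv_succ hu]

lemma P_mem {U : Subring A} (hα : ∀ j, α j ∈ U) (hy : y ∈ U) {i : Fin (r + 1)}
    (hc : ∀ j ≠ i, ∀ d : ℕ, ∃ c ∈ U, c * (α j - α i - d * y) = 1)
    (h0 : PowerSeries.coeff 0 P = -α i) (hV : V y P (fE α) = PowerSeries.X) (d : ℕ) :
    PowerSeries.coeff d P ∈ U := by
  induction d using Nat.strong_induction_on with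
  | _ d ih =>
    rcases Nat.eq_zero_or_pos d with rfl | hd
    · exact h0 ▸ neg_mem (hα i)
    have hP : ∀ j, ∀ e < d, PowerSeries.coeff e (P + PowerSeries.C (α j)) ∈ U := fun j e he => by
      rw [map_add, PowerSeries.coeff_C]
      exact add_mem (ih e he) (by split_ifs; exacts [hα j, zero_mem _])
    have H : ∀ s : Finset (Fin (r + 1)), i ∉ s → ∀ v,
        v = V y P ((∏ j ∈ s, (X + C (α j))) * (X + C (α i))) →
        (∀ e < d, PowerSeries.coeff e v ∈ U) ∧ PowerSeries.coeff 0 v = 0 ∧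
          ∃ c ∈ U, c * PowerSeries.coeff d v - PowerSeries.coeff d P ∈ U := by
      intro s
      induction s using Finset.induction_on with
      | empty =>
        intro _ v hv
        rw [prod_empty, mul_comm, V_lin, V_one, mul_one, (th A).map_one_eq_zero, mul_zero,
          sub_zero] at hv
        subst hv
        exact ⟨hP i, by rw [map_add, h0]; simp, 1, one_mem _, by
          simp [PowerSeries.coeff_C, hd.ne']⟩
      | insert j s hj ihs =>
        intro hi v hv
        rw [mem_insert, not_or] at hi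
        rw [prod_insert hj, mul_assoc, V_lin] at hv
        obtain ⟨h1, h2, c, h3, h4⟩ := ihs hi.2 _ rfl
        generalize V y P ((∏ j ∈ s, (X + C (α j))) * (X + C (α i))) = w at *
        obtain ⟨c', h5, h6⟩ := hc j (Ne.symm hi.1) d
        subst hv
        simp only [map_sub, PowerSeries.coeff_C_mul, coeff_th]
        simp only [PowerSeries.coeff_mul]
        refine ⟨fun e he => sub_mem (sum_mem fun q hq => ?_) (mul_mem hy (mul_mem (natCast_mem _ _)
          (h1 e he))), by simp [h2], c * c', mul_mem h3 h5, ?_⟩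
        · have := mem_antidiagonal.mp hq
          exact mul_mem (hP _ _ (by omega)) (h1 _ (by omega))
        · rw [← add_sum_erase _ _ (a := (0, d)) (by simp)]
          have h7 : ∑ q ∈ (antidiagonal d).erase (0, d), PowerSeries.coeff q.1
              (P + PowerSeries.C (α j)) * PowerSeries.coeff q.2 w ∈ U := sum_mem fun q hq => by
            have h8 := mem_antidiagonal.mp (mem_of_mem_erase hq)
            have h9 : q.1 ≠ 0 := fun h => ne_of_mem_erase hq (Prod.ext h (by omega))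
            rcases Nat.eq_zero_or_pos q.2 with h | h
            · rw [h, h2, mul_zero]; exact zero_mem _
            · exact mul_mem (hP _ _ (by omega)) (h1 _ (by omega))
          convert add_mem (mul_mem (mul_mem h3 h5) h7) h4 using 1
          rw [map_add, h0, PowerSeries.coeff_zero_C]
          linear_combination c * PowerSeries.coeff d w * h6
    obtain ⟨-, -, c, h1, h2⟩ := H (univ.erase i) (notMem_erase _ _) PowerSeries.X (by
      rw [prod_erase_mul _ _ (mem_univ i), ← hV, fE])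
    have h3 : PowerSeries.coeff d (PowerSeries.X : PowerSeries A) ∈ U := by
      rw [PowerSeries.coeff_X]; split_ifs; exacts [one_mem _, zero_mem _]
    simpa using sub_mem (mul_mem h1 h3) h2

end gen

variable {r : ℕ} {L : Type} [CommRing L] [Algebra ℂ L] {a : Fin (r + 1) → ℂ} (S : Dat L a)

namespace Dat

/-- `y = ε z`. -/
noncomputable def y : RH L := sg 1 S.z

/-- `α_j = a_j + ε c_j`. -/
noncomputable def al (j : Fin (r + 1)) : RH L := algebraMap ℂ _ (a j) + sg 1 (S.c j)

/-- The series at the component `i`. -/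
noncomputable def I (i : Fin (r + 1)) : RQ L := II (-S.al i) S.al S.y

/-- Its inverse. -/
noncomputable def J (i : Fin (r + 1)) : RQ L := JJ (-S.al i) S.al S.y

/-- The logarithmic derivative. -/
noncomputable def P (i : Fin (r + 1)) : RQ L := PP (-S.al i) S.al S.y

/-- The normalised derivatives. -/
noncomputable def W (k : ℕ) (i : Fin (r + 1)) : RQ L := V S.y (S.P i) (X ^ k)

/-- Series with controlled first two coefficients. -/
noncomputable def U : Subring (RH L) where
  carrier := {x | x ∈ Hat.Lo ℂ L 0 ∧ x.co 0 ∈ (⊥ : Subalgebra ℂ L) ∧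
    S.D (x.co 1) ∈ (⊥ : Subalgebra ℂ L)}
  add_mem' hx hy := ⟨add_mem hx.1 hy.1, add_mem hx.2.1 hy.2.1, by
    rw [Hat.co_add, map_add]; exact add_mem hx.2.2 hy.2.2⟩
  neg_mem' hx := ⟨neg_mem hx.1, neg_mem hx.2.1, by
    rw [Hat.co_neg, map_neg]; exact neg_mem hx.2.2⟩
  zero_mem' := ⟨zero_mem _, zero_mem _, by simp⟩
  one_mem' := ⟨Hat.one_Lo, one_mem _, by simp [← sg_zero, co_sg]⟩
  mul_mem' := by
    rintro x x' ⟨h1, ⟨s, h2⟩, h3⟩ ⟨h1', ⟨s', h2'⟩, h3'⟩
    have e : Icc (0 : ℤ) (1 - 0) = {0, 1} := rfl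
    refine ⟨by simpa using Hat.mul_Lo h1 h1', ?_, ?_⟩
    · rw [co_mul h1 h1']; simpa [← h2, ← h2'] using mul_mem (algebraMap_mem _ s) (algebraMap_mem _ s')
    · rw [co_mul h1 h1', e, sum_pair zero_ne_one, sub_self, sub_zero, ← h2, ← h2']
      simpa using add_mem (mul_mem (algebraMap_mem _ s) h3') (mul_mem (algebraMap_mem _ s') h3)

lemma lin_mem (b : ℂ) {w : L} (hw : S.D w ∈ (⊥ : Subalgebra ℂ L)) :
    algebraMap ℂ (RH L) b + sg 1 w ∈ S.U :=
  ⟨add_mem (sg_Lo _ _) (Hat.Lo_mono zero_le_one (sg_Lo _ _)), by simp [algebraMap_sg, co_sg],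
    by simpa [algebraMap_sg, co_sg] using hw⟩

lemma lin_inv {b : ℂ} (hb : b ≠ 0) {w : L} (hw : S.D w ∈ (⊥ : Subalgebra ℂ L)) :
    ∃ c ∈ S.U, c * (algebraMap ℂ (RH L) b + sg 1 w) = 1 := by
  obtain ⟨c, h1, -, h2, -⟩ := Hat.exists_inv (K := ℂ) (x := 1 + sg 1 (b⁻¹ • w))
    (by simpa using sg_Lo 1 _) ⊤ fun _ => trivial
  have h3 : c.co 0 = 1 := by simpa [← sg_zero, co_sg, sub_eq_zero] using h2 0 zero_lt_one
  have h4 := congrArg (·.co 1) h1
  simp only [add_mul, one_mul, Hat.co_add, co_sg_mul, sub_self, h3, mul_one] at h4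
  have h5 : c.co 1 = -(b⁻¹ • w) := by simpa [← sg_zero, co_sg, add_eq_zero_iff_eq_neg] using h4
  refine ⟨algebraMap ℂ _ b⁻¹ * c, mul_mem (by simpa [sg] using S.lin_mem b⁻¹ (w := 0) (by simp))
    ⟨by simpa using add_mem (Hat.Lo_mono zero_le_one h2) Hat.one_Lo, h3 ▸ one_mem _, ?_⟩, ?_⟩
  · rw [h5, map_neg, Derivation.map_smul]; exact neg_mem (Subalgebra.smul_mem _ hw _)
  · rw [← h1, mul_right_comm, mul_add, ← map_mul, inv_mul_cancel₀ hb, map_one, algebraMap_sg, sg_mul,
      zero_add, Algebra.smul_def]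

lemma al_sub (i j : Fin (r + 1)) (d : ℕ) : S.al j - S.al i - d * S.y =
    algebraMap ℂ (RH L) (a j - a i) + sg 1 (S.c j - S.c i - d * S.z) := by
  simp only [al, y, sg, map_sub, ← nsmul_eq_mul, map_nsmul]; abel

lemma al_inv (ha : Function.Injective a) {i j : Fin (r + 1)} (h : j ≠ i) (d : ℕ) :
    ∃ c ∈ S.U, c * (S.al j - S.al i - d * S.y) = 1 := by
  rw [al_sub]
  exact S.lin_inv (sub_ne_zero.mpr (ha.ne h)) (by
    simp [S.Dc, S.Dz, sub_mem])

lemma y_mul : S.y * sg (-1) S.zi = 1 := by rw [y, sg_mul, S.hz]; rfl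

lemma dn_unit (ha : Function.Injective a) (i : Fin (r + 1)) (d : ℕ) :
    IsUnit (dn (-S.al i) S.al S.y d) := by
  refine IsUnit.prod_iff.mpr fun j _ => IsUnit.prod_iff.mpr fun m _ => ?_
  by_cases h : j = i
  · rw [h, neg_add_cancel, zero_sub]
    refine (IsUnit.mul ?_ (.of_mul_eq_one _ S.y_mul)).neg
    simpa using (IsUnit.mk0 _ (Nat.cast_add_one_ne_zero (R := ℂ) m)).map (algebraMap ℂ (RH L))
  · obtain ⟨c, -, e⟩ := S.al_inv ha h (m + 1)
    exact .of_mul_eq_one c (by push_cast at e; linear_combination e)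

lemma V_al (ha : Function.Injective a) (i : Fin (r + 1)) :
    V S.y (S.P i) (fE S.al) = PowerSeries.X := V_fE (S.dn_unit ha i)

lemma P_U (ha : Function.Injective a) (i : Fin (r + 1)) (d : ℕ) :
    PowerSeries.coeff d (S.P i) ∈ S.U :=
  P_mem (fun j => S.lin_mem _ (by simp [S.Dc]))
    (by simpa [y] using S.lin_mem 0 (w := S.z) (by simp [S.Dz])) (fun _ h => S.al_inv ha h) PP_zero
    (S.V_al ha i) d

lemma y_LoQ : PowerSeries.C S.y ∈ LoQ L 1 := LoQ_C (sg_Lo _ _)

lemma yth_LoQ {K : ℤ} {x : RQ L} (h : x ∈ LoQ L K) : PowerSeries.C S.y * th _ x ∈ LoQ L (K + 1) :=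
  LoQ_mono (LoQ_mul S.y_LoQ (LoQ_th h)) (by omega)

lemma al_LoQ (j : Fin (r + 1)) : PowerSeries.C (S.al j) ∈ LoQ L 0 :=
  LoQ_C (add_mem (sg_Lo _ _) (Hat.Lo_mono zero_le_one (sg_Lo _ _)))

lemma cf_al (j : Fin (r + 1)) :
    cf 0 (PowerSeries.C (S.al j)) = PowerSeries.C (algebraMap ℂ L (a j)) := by
  simp [cf_C, al, algebraMap_sg, co_sg]

lemma lead {P v : RQ L} (hP : P ∈ LoQ L 0) {K : ℤ} (hv : v ∈ LoQ L K) :
    P * v - PowerSeries.C S.y * th _ v ∈ LoQ L K ∧
      cf K (P * v - PowerSeries.C S.y * th _ v) = cf 0 P * cf K v :=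
  ⟨sub_mem (LoQ_mono (LoQ_mul hP hv) (by omega)) (LoQ_mono (S.yth_LoQ hv) (by omega)), by
    rw [map_sub, mem_LoQ.mp (S.yth_LoQ hv) K (by omega), sub_zero, ← cf_lead hP hv, zero_add]⟩

lemma one_LoQ : (1 : RQ L) ∈ LoQ L 0 := LoQ_C Hat.one_Lo

lemma cf_one : cf 0 (1 : RQ L) = 1 := (cf_C 0 (1 : RH L)).trans rfl

lemma V_lead {P : RQ L} (hP : P ∈ LoQ L 0) (s : Finset (Fin (r + 1))) :
    V S.y P (∏ j ∈ s, (X + C (S.al j))) ∈ LoQ L 0 ∧ cf 0 (V S.y P (∏ j ∈ s, (X + C (S.al j)))) =
      aeval (cf 0 P) (∏ j ∈ s, (X + C (algebraMap ℂ L (a j)))) := by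
  induction s using Finset.induction_on with
  | empty => simp [one_LoQ, cf_one]
  | insert j s hj ih =>
    have := S.lead (add_mem hP (S.al_LoQ j)) ih.1
    rw [prod_insert hj, prod_insert hj, V_lin, this.2, ih.2]
    exact ⟨this.1, by simp [cf_al]⟩

lemma V_diff {P P' : RQ L} (hP : P ∈ LoQ L 0) {N : ℤ} (hN : 0 < N) (h : P - P' ∈ LoQ L N)
    (s : Finset (Fin (r + 1))) :
    V S.y P (∏ j ∈ s, (X + C (S.al j))) - V S.y P' (∏ j ∈ s, (X + C (S.al j))) ∈ LoQ L N ∧
      cf N (V S.y P (∏ j ∈ s, (X + C (S.al j))) - V S.y P' (∏ j ∈ s, (X + C (S.al j)))) =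
      aeval (cf 0 P) (derivative (∏ j ∈ s, (X + C (algebraMap ℂ L (a j))))) * cf N (P - P') := by
  have hP' : P' ∈ LoQ L 0 := by simpa using sub_mem hP (LoQ_mono h hN.le)
  have e0 : cf 0 P' = cf 0 P := by
    have := mem_LoQ.mp h 0 hN
    rw [map_sub, sub_eq_zero] at this; exact this.symm
  induction s using Finset.induction_on with
  | empty => simp
  | insert j s hj ih =>
    have h1 := S.lead (add_mem hP (S.al_LoQ j)) ih.1
    have h2 := S.V_lead hP' s
    have h3 := cf_lead h h2.1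
    have h4 := LoQ_mul h h2.1
    rw [add_zero] at h3 h4
    rw [prod_insert hj, prod_insert hj, V_lin, V_lin]
    generalize V S.y P (∏ j ∈ s, (X + C (S.al j))) = v at *
    generalize V S.y P' (∏ j ∈ s, (X + C (S.al j))) = v' at *
    have e : (P + PowerSeries.C (S.al j)) * v - PowerSeries.C S.y * th _ v -
        ((P' + PowerSeries.C (S.al j)) * v' - PowerSeries.C S.y * th _ v') =
        (P + PowerSeries.C (S.al j)) * (v - v') - PowerSeries.C S.y * th _ (v - v') +
          (P - P') * v' := by rw [map_sub]; ring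
    rw [e, map_add, h1.2, h3, ih.2, h2.2, e0]
    refine ⟨add_mem h1.1 h4, ?_⟩
    simp only [map_add, cf_al, derivative_mul, derivative_X, derivative_C, map_mul, map_one,
      aeval_X, aeval_C, map_zero, PowerSeries.algebraMap_apply, Algebra.algebraMap_self,
      RingHom.id_apply]
    ring

lemma exists_rt (ha : Function.Injective a) :
    ∃ p0, IsRt L a p0 ∧ ∀ i, cf 0 (S.P i) = scL L (p0 i) := by
  choose q hq using fun i d => Algebra.mem_bot.mp (S.P_U ha i d).2.1
  have e : ∀ i, cf 0 (S.P i) = scL L (PowerSeries.mk (q i)) := fun i => by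
    ext1 d; simp [scL, hq]
  refine ⟨fun i => PowerSeries.mk (q i), ⟨fun i => ?_, fun i => ?_⟩, e⟩
  · have := (S.V_lead (fun d => (S.P_U ha i d).1) univ).2
    rw [← e, f0, fE, ← this, ← fE, S.V_al ha]
    ext1 d
    simp [PowerSeries.coeff_X, apply_ite (Hat.co · 0), ← sg_zero, co_sg]
  · rw [← e, ← PowerSeries.coeff_zero_eq_constantCoeff_apply, coeff_cf, P, PP_zero]
    simp [al, algebraMap_sg, co_sg]

variable {p0 : Fin (r + 1) → PowerSeries ℂ}

lemma AA_al (j : Fin (r + 1)) : (fun _ => PowerSeries.C (S.al j)) ∈ AA L a p0 1 := by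
  simp only [al, map_add]
  exact add_mem (AA_mono (AA_single le_rfl _) zero_le_one) (AA_single zero_le_one _)

variable [IsDomain L] [CharZero L]

lemma AA_nab (hp : IsRt L a p0) {P x : Fin (r + 1) → RQ L} {δ : ℤ} (hP : P ∈ AA L a p0 1)
    (hx : x ∈ AA L a p0 δ) :
    (fun i => P i * x i - PowerSeries.C S.y * th _ (x i)) ∈ AA L a p0 (δ + 1) :=
  AA_mono (sub_mem (AA_mul hP hx) (AA_mul (AA_single zero_le_one _) (AA_th hp hx))) (by omega)

lemma AA_V (hp : IsRt L a p0) {P : Fin (r + 1) → RQ L} (hP : P ∈ AA L a p0 1)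
    (s : Finset (Fin (r + 1))) :
    (fun i => V S.y (P i) (∏ j ∈ s, (X + C (S.al j)))) ∈ AA L a p0 s.card := by
  induction s using Finset.induction_on with
  | empty => simpa using AA_single le_rfl (1 : L)
  | insert j s hj ih =>
    simp only [prod_insert hj, V_lin, card_insert_of_notMem hj, Nat.cast_succ]
    exact S.AA_nab hp (add_mem hP (S.AA_al j)) ih

theorem AA_P (ha : Function.Injective a) (hp : IsRt L a p0) (h0 : ∀ i, cf 0 (S.P i) = scL L (p0 i)) :
    S.P ∈ AA L a p0 1 := by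
  have hL : ∀ i, S.P i ∈ LoQ L 0 := fun i d => (S.P_U ha i d).1
  have H : ∀ N : ℕ, ∃ P' ∈ AA L a p0 1, ∀ i, S.P i - P' i ∈ LoQ L (N + 1) := fun N => by
    induction N with
    | zero =>
      refine ⟨_, AA_emb (g := fun i => scL L (p0 i)) le_rfl ?_, fun i => ?_⟩
      · simpa using B_aeval (F := Fl L a) (p := fun i => scL L (p0 i)) (Wle.nat1 X)
      · exact LoQ_succ (sub_mem (hL i) (emb_LoQ _ _)) (by simp [cf_emb, h0])
    | succ N ih =>
      obtain ⟨P', h1, h2⟩ := ih
      have hd : (derivative (f0 L a)).natDegree = r := by rw [natDegree_derivative, f0, fE_deg]; rfl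
      have h3 : (fun i => cf (N + 1) (S.P i - P' i)) ∈ BB L a p0 (1 - (N + 1)) := by
        refine B_div (Fl_monic L a).ne_zero (der_dvd L a) ?_
        have h4 : (fun _ => PowerSeries.X) ∈ AA L a p0 (r + 1) := by
          have := AA_emb (δ := r + 1) le_rfl (B_aeval (F := Fl L a) (p := fun i => scL L (p0 i))
            ((Wle.nat1 (f0 L a)).mono (by rw [f0, fE_deg]; simp)))
          simpa only [aeval_pi_apply₂, hp.1, emb, sg_zero, map_one, one_mul, PowerSeries.map_X]
            using this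
        have h5 := (sub_mem h4 (AA_mono (S.AA_V hp h1 univ) (by simp))).2 (N + 1)
        rw [hd]
        convert B_mono h5 (by omega : _ ≤ 1 - (N + 1 : ℤ) + r) using 1
        funext i
        rw [Pi.mul_apply, aeval_pi_apply₂, ← h0, f0, fE,
          ← (S.V_diff (hL i) (by omega) (h2 i) univ).2, ← fE, S.V_al ha]
        rfl
      refine ⟨_, add_mem h1 (AA_emb (by omega) h3), fun i => ?_⟩
      rw [Pi.add_apply, ← sub_sub]
      exact LoQ_succ (sub_mem (h2 i) (emb_LoQ _ _)) (by rw [map_sub, cf_emb]; simp)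
  refine ⟨hL, fun n => ?_⟩
  obtain ⟨P', h1, h2⟩ := H n.toNat
  convert h1.2 n using 2 with i
  have := mem_LoQ.mp (h2 i) n (by omega)
  rwa [map_sub, sub_eq_zero] at this

omit [IsDomain L] [CharZero L] in
lemma W_succ (k : ℕ) (i : Fin (r + 1)) :
    S.W (k + 1) i = S.P i * S.W k i - PowerSeries.C S.y * th _ (S.W k i) := by
  rw [W, pow_succ', V_X_mul, W]

lemma AA_W (hp : IsRt L a p0) (hP : S.P ∈ AA L a p0 1) (k : ℕ) :
    S.W k ∈ AA L a p0 k ∧ ∀ i, cf 0 (S.W k i) = cf 0 (S.P i) ^ k := by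
  induction k with
  | zero =>
    have e : S.W 0 = fun _ => 1 := funext fun i => by simp [W]
    exact e ▸ ⟨by simpa using AA_single le_rfl (1 : L), fun _ => by simp [cf_one]⟩
  | succ k ih =>
    refine ⟨?_, fun i => ?_⟩
    · have := S.AA_nab hp hP ih.1
      simp only [← W_succ] at this
      exact_mod_cast this
    · rw [W_succ, (S.lead (hP.1 i) (ih.1.1 i)).2, ih.2, pow_succ']

end Dat

end Vale.Agent.P269.Wkb
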