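import Vale.Agent.P269.Wkb.Alg
import Mathlib.RingTheory.PowerSeries.Derivative
import Mathlib.Algebra.Polynomial.Roots

/-! Derivations and shifts of the rings of series. -/

namespace Vale.Agent.P269.Wkb

open Fock B Finset Polynomial

variable {r : ℕ}

variable (r) in
/-- The variable `z`. -/
noncomputable def zL : L0 r := LaurentPolynomial.T 1

/-- The variable `c_j`. -/
noncomputable def cL (j : Fin (r + 1)) : L0 r := LaurentPolynomial.C (MvPolynomial.X j)

instance : CharZero (L0 r) := algebraRat.charZero _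

lemma zL_unit : IsUnit (zL r) := LaurentPolynomial.isUnit_T 1

lemma L0_ext {A : Type*} [CommRing A] [Algebra ℂ A] {f g : L0 r →ₐ[ℂ] A}
    (h1 : ∀ j, f (cL j) = g (cL j)) (h2 : f (zL r) = g (zL r)) : f = g := by
  have e1 : ∀ c, f (LaurentPolynomial.C c) = g (LaurentPolynomial.C c) := fun c => by
    induction c using MvPolynomial.induction_on with
    | C c => exact (f.commutes c).trans (g.commutes c).symm
    | add p q hp hq => simp only [map_add, hp, hq]
    | mul_X p j hp => rw [map_mul, map_mul, map_mul, hp]; exact congrArg _ (h1 j)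
  have e2 : ∀ n : ℕ, f (LaurentPolynomial.T n) = g (LaurentPolynomial.T n) := fun n => by
    have : (LaurentPolynomial.T n : L0 r) = zL r ^ n := by simp [zL]
    rw [this, map_pow, map_pow, h2]
  have e3 : ∀ n : ℤ, f (LaurentPolynomial.T n) = g (LaurentPolynomial.T n) := fun n => by
    obtain ⟨n, rfl | rfl⟩ := n.eq_nat_or_neg
    · exact e2 n
    · refine left_inv_eq_right_inv (a := f (LaurentPolynomial.T n)) ?_ ?_
      · rw [← map_mul, ← LaurentPolynomial.T_add]; simp
      · rw [e2, ← map_mul, ← LaurentPolynomial.T_add]; simp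
  refine AlgHom.ext fun x => ?_
  induction x using LaurentPolynomial.induction_on' with
  | add p q hp hq => simp only [map_add, hp, hq]
  | C_mul_T n c => rw [map_mul, map_mul, e1, e3]

/-- The substitution `c_l ↦ c_l + S`. -/
noncomputable def Phi (l : Fin (r + 1)) : L0 r →ₐ[ℂ] (L0 r)[X] where
  __ := LaurentPolynomial.eval₂
    (MvPolynomial.aeval fun j => C (cL j) + if j = l then (X : (L0 r)[X]) else 0).toRingHom
    (zL_unit.map (C : L0 r →+* (L0 r)[X])).unit
  commutes' c := (LaurentPolynomial.eval₂_C _ _ _).trans (AlgHom.commutes _ c)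

lemma Phi_c (l j : Fin (r + 1)) : Phi l (cL j) = C (cL j) + if j = l then X else 0 :=
  (LaurentPolynomial.eval₂_C _ _ _).trans (MvPolynomial.aeval_X _ _)

lemma Phi_z (l : Fin (r + 1)) : Phi l (zL r) = C (zL r) :=
  (LaurentPolynomial.eval₂_T _ _ 1).trans (by simp)

/-- The substitution `c_l ↦ c_l + s`. -/
noncomputable def ev (l : Fin (r + 1)) (s : L0 r) : L0 r →ₐ[ℂ] L0 r :=
  ((aeval s).restrictScalars ℂ).comp (Phi l)

lemma ev_apply (l : Fin (r + 1)) (s x : L0 r) : ev l s x = (Phi l x).eval s := by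
  simp [ev]

@[simp] lemma ev_c (l j : Fin (r + 1)) (s : L0 r) :
    ev l s (cL j) = cL j + if j = l then s else 0 := by
  rw [ev_apply, Phi_c]; split_ifs <;> simp

@[simp] lemma ev_z (l : Fin (r + 1)) (s : L0 r) : ev l s (zL r) = zL r := by
  rw [ev_apply, Phi_z, eval_C]

lemma Phi_zero (l : Fin (r + 1)) (x : L0 r) : (Phi l x).coeff 0 = x := by
  have : ev l 0 = AlgHom.id ℂ _ := L0_ext (by simp) (by simp)
  rw [coeff_zero_eq_eval_zero, ← ev_apply, this]; rfl

/-- The derivative with respect to `c_l`. -/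
noncomputable def Dc (l : Fin (r + 1)) : Derivation ℂ (L0 r) (L0 r) :=
  Derivation.mk' (((lcoeff (L0 r) 1).restrictScalars ℂ).comp (Phi l).toLinearMap) fun x y => by
    simp [mul_coeff_one, Phi_zero, mul_comm]

lemma Dc_apply (l : Fin (r + 1)) (x : L0 r) : Dc l x = (Phi l x).coeff 1 := rfl

lemma Dc_ev (m l : Fin (r + 1)) (x : L0 r) : Dc m (ev l (zL r) x) = ev l (zL r) (Dc m x) := by
  have : (Phi m).comp (ev l (zL r)) = (mapAlgHom (ev l (zL r))).comp (Phi m) := by
    refine L0_ext (A := (L0 r)[X]) (fun j => ?_) ?_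
    · show Phi m (ev l (zL r) (cL j)) = (Phi m (cL j)).map (ev l (zL r) : L0 r →+* L0 r)
      rw [ev_c, map_add, Phi_c, apply_ite (Phi m), Phi_z, map_zero]
      rw [Polynomial.map_add, map_C, RingHom.coe_coe, ev_c]
      split_ifs <;> simp [add_right_comm]
    · show Phi m (ev l (zL r) (zL r)) = (Phi m (zL r)).map (ev l (zL r) : L0 r →+* L0 r)
      simp [Phi_z]
  have h : Phi m (ev l (zL r) x) = (Phi m x).map (ev l (zL r) : L0 r →+* L0 r) :=
    DFunLike.congr_fun this x
  rw [Dc_apply, h, coeff_map]; rfl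

lemma exists_G (l : Fin (r + 1)) :
    ∃ G : L0 r →ₗ[ℂ] L0 r, ∀ x, G (ev l (zL r) x - x) = Dc l x := by
  let f : L0 r →ₗ[ℂ] L0 r := (ev l (zL r)).toLinearMap - LinearMap.id
  have h : LinearMap.ker f ≤ LinearMap.ker (Dc l).toLinearMap := fun x hx => by
    have e0 : ev l (zL r) x = x := sub_eq_zero.mp hx
    have e1 : ∀ n : ℕ, ev l (n * zL r) x = x := fun n => by
      induction n with
      | zero => rw [ev_apply, Nat.cast_zero, zero_mul, ← coeff_zero_eq_eval_zero, Phi_zero]
      | succ n ih =>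
        have : ev l ((n + 1 : ℕ) * zL r) = (ev l (zL r)).comp (ev l (n * zL r)) :=
          L0_ext (fun j => by by_cases h : j = l <;> simp [h]; ring) (by simp)
        rw [this, AlgHom.comp_apply, ih, e0]
    have e2 : Phi l x = C x := eq_of_infinite_eval_eq _ _ (Set.infinite_of_injective_forall_mem
      (f := fun n : ℕ => (n : L0 r) * zL r)
      (fun n m h => Nat.cast_injective (zL_unit.mul_left_injective h))
      fun n => by rw [Set.mem_ofPred, ← ev_apply, e1, eval_C])
    show (Phi l x).coeff 1 = 0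
    rw [e2, coeff_C_succ]
  obtain ⟨G, hG⟩ := LinearMap.exists_extend (((LinearMap.ker f).liftQ _ h).comp
    f.quotKerEquivRange.symm.toLinearMap)
  refine ⟨G, fun x => ?_⟩
  have := DFunLike.congr_fun hG ⟨f x, LinearMap.mem_range_self f x⟩
  refine this.trans ?_
  rw [LinearMap.comp_apply, LinearEquiv.coe_coe, f.quotKerEquivRange_symm_apply_image]
  rfl

/-- The derivative in the direction `a`. -/
noncomputable def dA (a : Fin (r + 1) → ℂ) : Derivation ℂ (L0 r) (L0 r) := ∑ l, a l • Dc l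

lemma dA_apply (a : Fin (r + 1) → ℂ) (x : L0 r) : dA a x = ∑ l, a l • Dc l x := by
  have := map_sum Derivation.coeFnAddMonoidHom (fun l => a l • Dc l) univ
  exact (congrFun this x).trans (Finset.sum_apply _ _ _)

@[simp] lemma dA_c (a : Fin (r + 1) → ℂ) (j : Fin (r + 1)) :
    dA a (cL j) = algebraMap ℂ _ (a j) := by
  rw [dA_apply, sum_eq_single j]
  · simp [Dc_apply, Phi_c, Algebra.algebraMap_eq_smul_one]
  · intro l _ h; simp [Dc_apply, Phi_c, h.symm]
  · simp

@[simp] lemma dA_z (a : Fin (r + 1) → ℂ) : dA a (zL r) = 0 := by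
  simp [dA_apply, Dc_apply, Phi_z]

lemma dA_ev (a : Fin (r + 1) → ℂ) (l : Fin (r + 1)) (x : L0 r) :
    dA a (ev l (zL r) x) = ev l (zL r) (dA a x) := by
  simp [dA_apply, Dc_ev]

/-- The data on the coefficient ring that are used. -/
structure Dat (L : Type) [CommRing L] [Algebra ℂ L] (a : Fin (r + 1) → ℂ) where
  z : L
  zi : L
  c : Fin (r + 1) → L
  D : Derivation ℂ L L
  T : Fin (r + 1) → L →ₐ[ℂ] L
  hz : z * zi = 1
  Dz : D z = 0
  Dc : ∀ j, D (c j) = algebraMap ℂ L (a j)
  Tz : ∀ l, T l z = z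
  Tc : ∀ l j, T l (c j) = c j + if j = l then z else 0
  DT : ∀ l x, D (T l x) = T l (D x)
  tay : ∃ G : Fin (r + 1) → L →ₗ[ℂ] L, ∀ x, D x = ∑ l, G l (T l x - x)

/-- The data on Laurent polynomials. -/
noncomputable def dat0 (a : Fin (r + 1) → ℂ) : Dat (L0 r) a where
  z := zL r
  zi := LaurentPolynomial.T (-1)
  c := cL
  D := dA a
  T l := ev l (zL r)
  hz := by rw [zL, ← LaurentPolynomial.T_add]; rfl
  Dz := dA_z a
  Dc := dA_c a
  Tz l := ev_z l _
  Tc l j := ev_c l j _
  DT := dA_ev a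
  tay := by
    choose G hG using exists_G (r := r)
    exact ⟨fun l => a l • G l, fun x => by simp only [dA_apply, LinearMap.smul_apply, hG]⟩

section ps

variable {A : Type*} [CommRing A] [Algebra ℂ A]

/-- A linear map applied to the coefficients of a power series. -/
noncomputable def pL (G : A →ₗ[ℂ] A) : PowerSeries A →ₗ[ℂ] PowerSeries A where
  toFun x := PowerSeries.mk fun d => G (PowerSeries.coeff d x)
  map_add' x y := by ext; simp
  map_smul' c x := by ext; simp

@[simp] lemma coeff_pL (G : A →ₗ[ℂ] A) (x : PowerSeries A) (d : ℕ) :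
    PowerSeries.coeff d (pL G x) = G (PowerSeries.coeff d x) :=
  PowerSeries.coeff_mk d fun d => G (PowerSeries.coeff d x)

/-- A derivation applied to the coefficients of a power series. -/
noncomputable def pD (D : Derivation ℂ A A) : Derivation ℂ (PowerSeries A) (PowerSeries A) :=
  Derivation.mk' (pL D.toLinearMap) fun x y => by
    ext d
    simp only [coeff_pL, PowerSeries.coeff_mul, map_sum, Derivation.coeFn_coe, D.leibniz,
      smul_eq_mul, map_add, sum_add_distrib, mul_comm y]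
    simp only [mul_comm]

@[simp] lemma coeff_pD (D : Derivation ℂ A A) (x : PowerSeries A) (d : ℕ) :
    PowerSeries.coeff d (pD D x) = D (PowerSeries.coeff d x) := coeff_pL D.toLinearMap x d

@[simp] lemma pD_C (D : Derivation ℂ A A) (c : A) :
    pD D (PowerSeries.C c) = PowerSeries.C (D c) := by
  ext d; simp [PowerSeries.coeff_C, apply_ite D]

@[simp] lemma pD_X (D : Derivation ℂ A A) : pD D PowerSeries.X = 0 := by
  ext d; simp [PowerSeries.coeff_X, apply_ite D]

lemma pL_mul (G : A →ₗ[ℂ] A) (s : PowerSeries ℂ) (x : PowerSeries A) :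
    pL G (PowerSeries.map (algebraMap ℂ A) s * x) = PowerSeries.map (algebraMap ℂ A) s * pL G x := by
  ext d
  simp [PowerSeries.coeff_mul, ← Algebra.smul_def]

omit [Algebra ℂ A]

variable (A) in
/-- The operator `Q ∂_Q`. -/
noncomputable def th : Derivation A (PowerSeries A) (PowerSeries A) :=
  (PowerSeries.X : PowerSeries A) • PowerSeries.derivative A

@[simp] lemma coeff_th (x : PowerSeries A) (d : ℕ) :
    PowerSeries.coeff d (th A x) = d * PowerSeries.coeff d x := by
  rcases d with _ | d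
  · simp [th]
  · simp [th, PowerSeries.coeff_succ_X_mul, PowerSeries.coeff_derivative, mul_comm]

@[simp] lemma th_C (c : A) : th A (PowerSeries.C c) = 0 := by
  ext d; rcases d with _ | d <;> simp

@[simp] lemma th_X : th A PowerSeries.X = PowerSeries.X := by simp [th]

lemma div_mem {U : Subring A} {M : AddSubgroup A} (hM : ∀ u ∈ U, ∀ v ∈ M, u * v ∈ M)
    {x y : PowerSeries A} {c : A} (hc : c ∈ U) (h0 : c * PowerSeries.coeff 0 x = 1)
    (hx : ∀ d, PowerSeries.coeff d x ∈ U) (h : ∀ d, PowerSeries.coeff d (x * y) ∈ M) (d : ℕ) :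
    PowerSeries.coeff d y ∈ M := by
  induction d using Nat.strong_induction_on with
  | _ d ih =>
    have h1 := h d
    rw [PowerSeries.coeff_mul, ← add_sum_erase _ _ (a := (0, d)) (by simp)] at h1
    have h2 := hM c hc _ ((add_mem_cancel_right (sum_mem fun q hq => hM _ (hx _) _ (ih _ (by
      have h3 := mem_antidiagonal.mp (mem_of_mem_erase hq)
      have h4 := ne_of_mem_erase hq
      by_contra h5
      exact h4 (Prod.ext (by omega) (by omega)))))).mp h1)
    rwa [← mul_assoc, h0, one_mul] at h2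

end ps

/-- Laurent series in `ε`. -/
abbrev RH (L : Type) [CommRing L] : Type := Hat ℂ L

variable {L : Type} [CommRing L]

/-- The monomial `c ε^n`. -/
noncomputable def sg (n : ℤ) (c : L) : RH L := Hat.single ℂ n c

lemma co_sg (k : ℤ) (c : L) (n : ℤ) : (sg k c).co n = if n = k then c else 0 := Hat.co_single _ _ _

lemma co_sg_mul (k : ℤ) (c : L) (x : RH L) (n : ℤ) : (sg k c * x).co n = c * x.co (n - k) :=
  Hat.co_single_mul _ _ _ _

lemma sg_mul (k l : ℤ) (c c' : L) : sg k c * sg l c' = sg (k + l) (c * c') := Hat.single_mul _ _ _ _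

@[simp] lemma sg_zero : sg 0 (1 : L) = 1 := rfl

lemma sg_pow (k : ℤ) (c : L) (n : ℕ) : sg k c ^ n = sg (n * k) (c ^ n) := by
  induction n with
  | zero => simp
  | succ n ih => rw [pow_succ, ih, sg_mul, pow_succ]; congr 1; push_cast; ring

lemma sg_Lo (k : ℤ) (c : L) : sg k c ∈ Hat.Lo ℂ L k := Hat.single_Lo _ _

lemma sg_add (k : ℤ) (c c' : L) : sg k (c + c') = sg k c + sg k c' := map_add (Hat.single ℂ k) _ _

/-- Constants. -/
noncomputable def hC : L →+* RH L := Hat.C ℂ

lemma hC_apply (c : L) : hC c = sg 0 c := rfl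

lemma co_mul {x y : RH L} {A B : ℤ} (hx : x ∈ Hat.Lo ℂ L A) (hy : y ∈ Hat.Lo ℂ L B) (n : ℤ) :
    (x * y).co n = ∑ i ∈ Icc A (n - B), x.co i * y.co (n - i) := Hat.co_cv Hat.bi_mul hx hy n

variable [Algebra ℂ L]

lemma algebraMap_sg (c : ℂ) : algebraMap ℂ (RH L) c = sg 0 (algebraMap ℂ L c) := rfl

/-- A linear map applied to the coefficients of a Laurent series. -/
noncomputable def hL (G : L →ₗ[ℂ] L) : RH L →ₗ[ℂ] RH L where
  toFun x := Hat.map G x
  map_add' x y := by ext; simp
  map_smul' c x := by ext; simp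

@[simp] lemma co_hL (G : L →ₗ[ℂ] L) (x : RH L) (n : ℤ) : (hL G x).co n = G (x.co n) := rfl

/-- A derivation applied to the coefficients of a Laurent series. -/
noncomputable def hD (D : Derivation ℂ L L) : Derivation ℂ (RH L) (RH L) :=
  Derivation.mk' (R := ℂ) (A := RH L) (M := RH L) (hL D.toLinearMap) fun x y => by
    obtain ⟨A, hA⟩ := x.exists_Lo
    obtain ⟨B, hB⟩ := y.exists_Lo
    have hA' : hL D.toLinearMap x ∈ Hat.Lo ℂ _ A := Hat.map_Lo _ hA
    have hB' : hL D.toLinearMap y ∈ Hat.Lo ℂ _ B := Hat.map_Lo _ hB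
    refine Hat.ext (funext fun n => ?_)
    rw [smul_eq_mul, smul_eq_mul, mul_comm y]
    simp only [Hat.co_add, co_hL, co_mul hA hB, co_mul hA' hB, co_mul hA hB', map_sum,
      Derivation.coeFn_coe, D.leibniz, smul_eq_mul, sum_add_distrib]
    simp only [mul_comm]

@[simp] lemma co_hD (D : Derivation ℂ L L) (x : RH L) (n : ℤ) : (hD D x).co n = D (x.co n) := rfl

variable (L) in
/-- `ε ∂_ε`. -/
noncomputable def e0 : Derivation ℂ (RH L) (RH L) :=
  Derivation.mk' (R := ℂ) (A := RH L) (M := RH L) (Hat.th ℂ L) fun x y => by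
    rw [Hat.th_mul, smul_eq_mul, smul_eq_mul]; ring

@[simp] lemma co_e0 (x : RH L) (n : ℤ) : (e0 L x).co n = (n : ℂ) • x.co n := rfl

lemma e0_sg (k : ℤ) (c : L) : e0 L (sg k c) = (k : ℂ) • sg k c :=
  Hat.ext (funext fun n => by by_cases h : n = k <;> simp [co_sg, h])

variable {a : Fin (r + 1) → ℂ} (S : Dat L a)

/-- The derivative in the direction `a` with respect to the variables `ε c_j`. -/
noncomputable def Dat.d0 : Derivation ℂ (RH L) (RH L) := sg (-1) (1 : L) • hD S.D

@[simp] lemma Dat.co_d0 (x : RH L) (n : ℤ) : (S.d0 x).co n = S.D (x.co (n + 1)) := by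
  rw [Dat.d0, Derivation.smul_apply, smul_eq_mul, co_sg_mul, co_hD, sub_neg_eq_add, one_mul]

lemma Dat.d0_sg (k : ℤ) (c : L) : S.d0 (sg k c) = sg (k - 1) (S.D c) :=
  Hat.ext (funext fun n => by simp [co_sg, apply_ite S.D, eq_sub_iff_add_eq])

/-- The shift `c_l ↦ c_l + z`. -/
noncomputable def Dat.t0 (l : Fin (r + 1)) : RH L →+* RH L := Hat.mapR (S.T l).toRingHom

@[simp] lemma Dat.co_t0 (l : Fin (r + 1)) (x : RH L) (n : ℤ) :
    (S.t0 l x).co n = S.T l (x.co n) := rfl

lemma Dat.t0_sg (l : Fin (r + 1)) (k : ℤ) (c : L) : S.t0 l (sg k c) = sg k (S.T l c) :=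
  Hat.mapR_single _ _ _

lemma Dat.e0_d0 (x : RH L) : e0 L (S.d0 x) = S.d0 (e0 L x) - S.d0 x :=
  Hat.ext (funext fun n => by simp [add_smul])

lemma Dat.d0_t0 (l : Fin (r + 1)) (x : RH L) : S.d0 (S.t0 l x) = S.t0 l (S.d0 x) :=
  Hat.ext (funext fun n => by simp [S.DT])

end Vale.Agent.P269.Wkb
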